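import Mathlib

/-!
Row 32 (Heilbronn lower bound): the label structure.
The norm from `F_{p^r}` (r odd) of the Vandermonde determinant is an alternating function of three
labels, non-zero on distinct labels, and a sum of boundedly many 3 x 3 determinants.
-/

set_option autoImplicit false

namespace Crest.Agent.R32

open Finset

/-- explicit 3 x 3 determinant with rows `x y z` and columns `a b c`. -/
def dd {R L : Type*} [CommRing R] (x y z : L → R) (a b c : L) : R :=
  x a * (y b * z c - y c * z b) - x b * (y a * z c - y c * z a) + x c * (y a * z b - y b * z a)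

section Rank

variable {K F : Type} [CommRing F]

/-- `Ψ` is a sum of pure products indexed by `ι`. -/
def Rk (ι : Type) [Fintype ι] (Ψ : K → K → K → F) : Prop :=
  ∃ f g h : ι → K → F, ∀ a b c, Ψ a b c = ∑ α, f α a * g α b * h α c

lemma Rk.sum {ι κ : Type} [Fintype ι] [Fintype κ] (Ψ : κ → K → K → K → F)
    (h : ∀ x, Rk ι (Ψ x)) : Rk (κ × ι) (fun a b c => ∑ x, Ψ x a b c) := by
  choose f g h' H using h
  refine ⟨fun α => f α.1 α.2, fun α => g α.1 α.2, fun α => h' α.1 α.2, fun a b c => ?_⟩
  rw [Fintype.sum_prod_type]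
  exact Finset.sum_congr rfl fun x _ => H x a b c

lemma Rk.prod {ι κ : Type} [Fintype ι] [Fintype κ] [DecidableEq κ] (Ψ : κ → K → K → K → F)
    (h : ∀ x, Rk ι (Ψ x)) : Rk (κ → ι) (fun a b c => ∏ x, Ψ x a b c) := by
  choose f g h' H using h
  refine ⟨fun α a => ∏ x, f x (α x) a, fun α a => ∏ x, g x (α x) a,
    fun α a => ∏ x, h' x (α x) a, fun a b c => ?_⟩
  simp only [H]
  rw [Finset.prod_univ_sum]
  simp only [Fintype.piFinset_univ]
  refine Finset.sum_congr rfl fun α _ => ?_
  rw [Finset.prod_mul_distrib, Finset.prod_mul_distrib]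

lemma Rk.smul {ι : Type} [Fintype ι] (e : F) {Ψ : K → K → K → F} (h : Rk ι Ψ) :
    Rk ι (fun a b c => e * Ψ a b c) := by
  obtain ⟨f, g, h', H⟩ := h
  refine ⟨fun α a => e * f α a, g, h', fun a b c => ?_⟩
  simp only [H, Finset.mul_sum]
  exact Finset.sum_congr rfl fun α _ => by ring

lemma Rk.congr {ι : Type} [Fintype ι] {Ψ Φ : K → K → K → F} (h : Rk ι Ψ)
    (e : ∀ a b c, Φ a b c = Ψ a b c) : Rk ι Φ := by
  obtain ⟨f, g, h', H⟩ := h
  exact ⟨f, g, h', fun a b c => (e a b c).trans (H a b c)⟩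

end Rank

section Norm

variable {K F : Type} [Field F] [Field K] [Algebra F K] {r : ℕ}

lemma rk_lin (bs : Module.Basis (Fin r) F K) (l : K →ₗ[F] F) (u v w : K → K) :
    Rk (Fin r × Fin r × Fin r) (fun a b c => l (u a * v b * w c)) := by
  refine ⟨fun α a => bs.repr (u a) α.1 * l (bs α.1 * bs α.2.1 * bs α.2.2),
    fun α b => bs.repr (v b) α.2.1, fun α c => bs.repr (w c) α.2.2, fun a b c => ?_⟩
  have e : u a * v b * w c = ∑ α : Fin r × Fin r × Fin r,
      (bs.repr (u a) α.1 * bs.repr (v b) α.2.1 * bs.repr (w c) α.2.2) •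
        (bs α.1 * bs α.2.1 * bs α.2.2) := by
    have gen : ∀ x y z : Fin r → K, (∑ i, x i) * (∑ j, y j) * (∑ k, z k) =
        ∑ α : Fin r × Fin r × Fin r, x α.1 * y α.2.1 * z α.2.2 := by
      intro x y z
      rw [Finset.sum_mul_sum, Finset.sum_mul, Fintype.sum_prod_type]
      refine Finset.sum_congr rfl fun i _ => ?_
      rw [Finset.sum_mul_sum, Fintype.sum_prod_type]
    conv_lhs => rw [← bs.sum_repr (u a), ← bs.sum_repr (v b), ← bs.sum_repr (w c)]
    rw [gen]
    refine Finset.sum_congr rfl fun α _ => ?_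
    simp only [Algebra.smul_def, map_mul]
    ring
  show l (u a * v b * w c) = _
  rw [e, map_sum]
  refine Finset.sum_congr rfl fun α _ => ?_
  rw [map_smul, smul_eq_mul]
  ring

/-- the Vandermonde product -/
def vdm (a b c : K) : K := (b - a) * (c - a) * (c - b)

lemma rk_vdm (bs : Module.Basis (Fin r) F K) (l : K →ₗ[F] F) :
    Rk (Fin 6 × (Fin r × Fin r × Fin r)) (fun a b c : K => l (vdm a b c)) := by
  let u : Fin 6 → K → K := ![fun _ => 1, fun _ => -1, fun a => -a, fun a => a ^ 2, fun a => a,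
    fun a => -a ^ 2]
  let v : Fin 6 → K → K := ![fun b => b, fun b => b ^ 2, fun _ => 1, fun _ => 1, fun b => b ^ 2,
    fun b => b]
  let w : Fin 6 → K → K := ![fun c => c ^ 2, fun c => c, fun c => c ^ 2, fun c => c, fun _ => 1,
    fun _ => 1]
  refine (Rk.sum (fun x a b c => l (u x a * v x b * w x c))
    (fun x => rk_lin bs l (u x) (v x) (w x))).congr fun a b c => ?_
  rw [← map_sum]
  congr 1
  simp [Fin.sum_univ_succ, u, v, w, vdm]
  ring

/-- index type of the expansion -/
abbrev JJ (r : ℕ) : Type := Equiv.Perm (Fin r) × (Fin r → Fin 6 × (Fin r × Fin r × Fin r))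

lemma rk_norm (bs : Module.Basis (Fin r) F K) :
    Rk (JJ r) (fun a b c : K => Algebra.norm F (vdm a b c)) := by
  refine (Rk.sum (fun (σ : Equiv.Perm (Fin r)) (a b c : K) => ((Equiv.Perm.sign σ : ℤ) : F) *
      ∏ i, ((bs.coord (σ i)) ∘ₗ (LinearMap.mulRight F (bs i))) (vdm a b c))
    (fun σ => Rk.smul _ (Rk.prod _ fun i => rk_vdm bs _))).congr fun a b c => ?_
  rw [Algebra.norm_eq_matrix_det bs, Matrix.det_apply']
  refine Finset.sum_congr rfl fun σ _ => ?_
  congr 1
  refine Finset.prod_congr rfl fun i _ => ?_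
  rw [Algebra.leftMulMatrix_eq_repr_mul]
  simp

lemma norm_neg' (bs : Module.Basis (Fin r) F K) (hr : Odd r) (x : K) :
    Algebra.norm F (-x) = -Algebra.norm F x := by
  have h1 : Algebra.norm F (-1 : K) = -1 := by
    have := Algebra.norm_algebraMap_of_basis bs (-1 : F)
    rw [map_neg, map_one] at this
    rw [this, Fintype.card_fin, hr.neg_one_pow]
  rw [← neg_one_mul x, map_mul, h1]; ring

lemma exists_alt (bs : Module.Basis (Fin r) F K) (hr : Odd r) :
    ∃ f g h : JJ r × Fin 3 → K → F,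
      (∀ a b c, ∑ α, dd (f α) (g α) (h α) a b c = 18 * Algebra.norm F (vdm a b c)) ∧
      (∀ a b, (∀ α, g α a = g α b) → ∀ α, f α a = f α b ∧ h α a = h α b) := by
  obtain ⟨f, g, h, H⟩ := rk_norm bs
  refine ⟨fun α => ![f α.1, g α.1, h α.1] α.2, fun α => ![g α.1, h α.1, f α.1] α.2,
    fun α => ![h α.1, f α.1, g α.1] α.2, fun a b c => ?_, fun a b hab α => ?_⟩
  · have key : ∑ α, dd (f α) (g α) (h α) a b c = 6 * Algebra.norm F (vdm a b c) := by
      have e1 : vdm a c b = -vdm a b c := by unfold vdm; ring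
      have e2 : vdm b a c = -vdm a b c := by unfold vdm; ring
      have e3 : vdm b c a = vdm a b c := by unfold vdm; ring
      have e4 : vdm c a b = vdm a b c := by unfold vdm; ring
      have e5 : vdm c b a = -vdm a b c := by unfold vdm; ring
      have h0 := H a b c
      have h1 := H a c b
      have h2 := H b a c
      have h3 := H b c a
      have h4 := H c a b
      have h5 := H c b a
      simp only [e1, e2, e3, e4, e5, norm_neg' bs hr] at h0 h1 h2 h3 h4 h5
      have : ∑ α, dd (f α) (g α) (h α) a b c =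
          ∑ α, f α a * g α b * h α c - ∑ α, f α a * g α c * h α b
          - ∑ α, f α b * g α a * h α c + ∑ α, f α b * g α c * h α a
          + ∑ α, f α c * g α a * h α b - ∑ α, f α c * g α b * h α a := by
        simp only [← Finset.sum_sub_distrib, ← Finset.sum_add_distrib]
        exact Finset.sum_congr rfl fun α _ => by unfold dd; ring
      rw [this, ← h0, ← h1, ← h2, ← h3, ← h4, ← h5]; ring
    rw [Fintype.sum_prod_type]
    have : ∀ α : JJ r, ∑ s : Fin 3, dd (![f α, g α, h α] s) (![g α, h α, f α] s)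
        (![h α, f α, g α] s) a b c = 3 * dd (f α) (g α) (h α) a b c := by
      intro α
      simp [Fin.sum_univ_succ, dd]
      ring
    simp only [this, ← Finset.mul_sum, key]
    ring
  · obtain ⟨α, s⟩ := α
    have h0 := hab (α, 0)
    have h1 := hab (α, 1)
    have h2 := hab (α, 2)
    simp at h0 h1 h2
    fin_cases s <;> simp [h0, h1, h2]

end Norm

theorem label (r : ℕ) (hr : Odd r) : ∃ t : ℕ, ∀ p : ℕ, p.Prime → 5 ≤ p →
    ∃ f g h : Fin t → Fin (p ^ r) → ℕ,
      (∀ α i, f α i < p ∧ g α i < p ∧ h α i < p) ∧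
      (∀ a b c, a ≠ b → a ≠ c → b ≠ c → ¬ (p : ℤ) ∣
        ∑ α, dd (fun i => (f α i : ℤ)) (fun i => (g α i : ℤ)) (fun i => (h α i : ℤ)) a b c) ∧
      (∀ a b, a ≠ b → ∃ α, g α a ≠ g α b) := by
  refine ⟨Fintype.card (JJ r × Fin 3), fun p hp h5 => ?_⟩
  have : Fact p.Prime := ⟨hp⟩
  have hr0 : r ≠ 0 := by rintro rfl; simp at hr
  have hfr : Module.finrank (ZMod p) (GaloisField p r) = r := GaloisField.finrank p hr0
  let bs : Module.Basis (Fin r) (ZMod p) (GaloisField p r) :=
    Module.finBasisOfFinrankEq (ZMod p) (GaloisField p r) hfr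
  obtain ⟨f, g, h, H1, H2⟩ := exists_alt bs hr
  let _ : Fintype (GaloisField p r) := Fintype.ofFinite _
  have hc : Fintype.card (GaloisField p r) = p ^ r := by
    rw [← Nat.card_eq_fintype_card]; exact GaloisField.card p r hr0
  let e : Fin (p ^ r) ≃ GaloisField p r := (Fintype.equivFinOfCardEq hc).symm
  let ι : Fin (Fintype.card (JJ r × Fin 3)) ≃ (JJ r × Fin 3) := (Fintype.equivFin _).symm
  have h18 : (18 : ZMod p) ≠ 0 := by
    intro h0
    have : ((18 : ℕ) : ZMod p) = 0 := by exact_mod_cast h0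
    rw [ZMod.natCast_eq_zero_iff] at this
    have h2 : p ∣ 2 * (3 * 3) := this
    rcases (Nat.Prime.dvd_mul hp).1 h2 with h | h
    · have := Nat.le_of_dvd (by norm_num) h; omega
    · rcases (Nat.Prime.dvd_mul hp).1 h with h | h <;>
      · have := Nat.le_of_dvd (by norm_num) h; omega
  have hne : ∀ a b c : GaloisField p r, a ≠ b → a ≠ c → b ≠ c →
      ∑ α, dd (f α) (g α) (h α) a b c ≠ 0 := by
    intro a b c hab hac hbc
    rw [H1]
    refine mul_ne_zero h18 ?_
    rw [Algebra.norm_ne_zero_iff_of_basis bs]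
    unfold vdm
    exact mul_ne_zero (mul_ne_zero (sub_ne_zero.2 hab.symm) (sub_ne_zero.2 hac.symm))
      (sub_ne_zero.2 hbc.symm)
  refine ⟨fun α i => (f (ι α) (e i)).val, fun α i => (g (ι α) (e i)).val,
    fun α i => (h (ι α) (e i)).val, fun α i => ⟨ZMod.val_lt _, ZMod.val_lt _, ZMod.val_lt _⟩,
    fun a b c hab hac hbc hd => ?_, fun a b hab => ?_⟩
  · rw [← ZMod.intCast_zmod_eq_zero_iff_dvd] at hd
    apply hne (e a) (e b) (e c) (e.injective.ne hab) (e.injective.ne hac) (e.injective.ne hbc)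
    rw [← hd, ← ι.sum_comp]
    push_cast
    refine Finset.sum_congr rfl fun α _ => ?_
    simp [dd]
  · by_contra hcon
    push Not at hcon
    have hg : ∀ α, g α (e a) = g α (e b) := by
      intro α
      have := hcon (ι.symm α)
      simp only [Equiv.apply_symm_apply] at this
      exact ZMod.val_injective p this
    have h3 : 3 ≤ p ^ r := le_trans (by omega) (Nat.le_self_pow hr0 p)
    obtain ⟨c, hca, hcb⟩ : ∃ c : Fin (p ^ r), c ≠ a ∧ c ≠ b := by
      by_contra hn
      push Not at hn
      have : (Finset.univ : Finset (Fin (p ^ r))) ⊆ {a, b} := by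
        intro c _
        by_cases hca : c = a
        · simp [hca]
        · simp [hn c hca]
      have h4 := Finset.card_le_card this
      have h5 : ({a, b} : Finset (Fin (p ^ r))).card ≤ 2 := Finset.card_le_two
      simp at h4
      omega
    apply hne (e a) (e b) (e c) (e.injective.ne hab) (e.injective.ne hca.symm)
      (e.injective.ne hcb.symm)
    refine Finset.sum_eq_zero fun α _ => ?_
    obtain ⟨hf, hh⟩ := H2 _ _ hg α
    unfold dd
    rw [hf, hh, hg α]; ring

end Crest.Agent.R32
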