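import Mathlib
import Crest.Agent.R32.Label

/-!
Row 32: digit encodings in base `l`.
-/

set_option autoImplicit false

namespace Crest.Agent.R32

open Finset Polynomial

lemma dvd_eq {a b c : ℤ} (h : a ∣ b) (e : c = b) : a ∣ c := e ▸ h

lemma partial_bound (c : ℕ → ℤ) (B l : ℤ) (hc : ∀ j, |c j| ≤ B) (hB : 4 * B ≤ l) (hl : 2 ≤ l)
    (m : ℕ) : 2 * |∑ j ∈ range m, c j * l ^ j| ≤ l ^ m := by
  induction m with
  | zero => simp
  | succ m ih =>
    rw [Finset.sum_range_succ]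
    have h1 := abs_add_le (∑ j ∈ range m, c j * l ^ j) (c m * l ^ m)
    have hp : 0 < l ^ m := by positivity
    have h2 : |c m * l ^ m| ≤ B * l ^ m := by
      rw [abs_mul, abs_of_pos hp]
      exact mul_le_mul_of_nonneg_right (hc m) hp.le
    rw [pow_succ]
    nlinarith

lemma top_digit (P : ℤ[X]) (B l : ℤ) (τ : ℕ) (hc : ∀ j, |P.coeff j| ≤ B) (hB : 4 * B ≤ l)
    (hτ : P.coeff τ ≠ 0) (D : ℤ) (hD : l ^ (τ + 1) ∣ D - P.eval l) : l ^ τ ≤ 2 * |D| := by
  have hB1 : 1 ≤ B := le_trans (Int.one_le_abs hτ) (hc τ)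
  have hl : 2 ≤ l := by omega
  have hev : P.eval l = ∑ j ∈ range (τ + 1 + (P.natDegree + 1)), P.coeff j * l ^ j :=
    eval_eq_sum_range' (by omega) l
  rw [Finset.sum_range_add] at hev
  have hdv : l ^ (τ + 1) ∣ ∑ j ∈ range (P.natDegree + 1), P.coeff (τ + 1 + j) * l ^ (τ + 1 + j) :=
    Finset.dvd_sum fun j _ => Dvd.dvd.mul_left (pow_dvd_pow l (by omega)) _
  set E := ∑ j ∈ range (τ + 1), P.coeff j * l ^ j with hE
  have hDE : l ^ (τ + 1) ∣ D - E := by
    have := dvd_add hD hdv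
    rw [hev] at this
    exact dvd_eq this (by ring)
  have h1 := partial_bound P.coeff B l hc hB hl (τ + 1)
  have h0 := partial_bound P.coeff B l hc hB hl τ
  have hp : 0 < l ^ τ := by positivity
  have hE2 : l ^ τ ≤ 2 * |E| := by
    rw [hE, Finset.sum_range_succ]
    have h3 : l ^ τ ≤ |P.coeff τ * l ^ τ| := by
      rw [abs_mul, abs_of_pos hp]
      have := Int.one_le_abs hτ
      nlinarith
    have h4 := abs_sub_abs_le_abs_sub (P.coeff τ * l ^ τ) (-(∑ j ∈ range τ, P.coeff j * l ^ j))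
    rw [abs_neg, sub_neg_eq_add, add_comm] at h4
    omega
  obtain ⟨n, hn⟩ := hDE
  by_cases hn0 : n = 0
  · subst hn0
    have : D = E := by linarith
    rw [this]; exact hE2
  · have h5 : l ^ (τ + 1) ≤ |D - E| := by
      rw [hn, abs_mul, abs_of_pos (by positivity : 0 < l ^ (τ + 1))]
      have := Int.one_le_abs hn0
      have hp' : 0 < l ^ (τ + 1) := by positivity
      nlinarith
    have h6 := abs_sub D E
    rw [← hE] at h1
    have h7 : l ^ τ ≤ l ^ (τ + 1) := pow_le_pow_right₀ (by omega) (by omega)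
    omega

lemma sparse_mul_bound {ι : Type*} [Fintype ι] (Q : ℤ[X]) (B : ℤ) (hQ : ∀ a, |Q.coeff a| ≤ B)
    (c : ι → ℤ) (e : ι → ℕ) (a : ℕ) :
    |(Q * ∑ i, C (c i) * X ^ (e i)).coeff a| ≤ B * ∑ i, |c i| := by
  have hB : 0 ≤ B := le_trans (abs_nonneg _) (hQ 0)
  rw [Finset.mul_sum, finsetSum_coeff, Finset.mul_sum]
  refine le_trans (Finset.abs_sum_le_sum_abs _ _) (Finset.sum_le_sum fun i _ => ?_)
  rw [← mul_assoc, coeff_mul_X_pow']
  split_ifs
  · rw [coeff_mul_C, abs_mul]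
    exact mul_le_mul_of_nonneg_right (hQ _) (abs_nonneg _)
  · simp only [abs_zero]; positivity

lemma two_pow_add (a b c : ℕ) (h : 2 ^ a + 2 ^ b = 2 ^ (c + 1)) : a = c ∧ b = c := by
  have ha : a ≤ c := by
    by_contra hh
    have : 2 ^ (c + 1) ≤ 2 ^ a := Nat.pow_le_pow_right (by norm_num) (by omega)
    have : 0 < 2 ^ b := by positivity
    omega
  have hb : b ≤ c := by
    by_contra hh
    have : 2 ^ (c + 1) ≤ 2 ^ b := Nat.pow_le_pow_right (by norm_num) (by omega)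
    have : 0 < 2 ^ a := by positivity
    omega
  have ha' : 2 ^ a ≤ 2 ^ c := Nat.pow_le_pow_right (by norm_num) ha
  have hb' : 2 ^ b ≤ 2 ^ c := Nat.pow_le_pow_right (by norm_num) hb
  rw [pow_succ] at h
  constructor
  · exact Nat.pow_right_injective (le_refl 2) (by simp only; omega)
  · exact Nat.pow_right_injective (le_refl 2) (by simp only; omega)

lemma digits_unique {ι : Type*} [Fintype ι] (e : ι → ℕ) (he : Function.Injective e) (d : ι → ℤ)
    (l : ℤ) (hd : ∀ i, |d i| < l) (j : ℕ) (h : l ^ j ∣ ∑ i, d i * l ^ (e i)) :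
    ∀ i, e i < j → d i = 0 := by
  classical
  by_contra hcon
  push Not at hcon
  have hne : (Finset.univ.filter fun i => d i ≠ 0).Nonempty := by
    obtain ⟨i, _, hi⟩ := hcon
    exact ⟨i, by simpa using hi⟩
  obtain ⟨i0, hi0, hmin⟩ := Finset.exists_min_image _ e hne
  have hi0' : d i0 ≠ 0 := by simpa using hi0
  obtain ⟨i1, hi1, hi1'⟩ := hcon
  have hlt : e i0 < j := lt_of_le_of_lt (hmin i1 (by simpa using hi1')) hi1
  have hl : 0 < l := lt_of_le_of_lt (abs_nonneg _) (hd i0)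
  have h1 : l ^ (e i0 + 1) ∣ ∑ i, d i * l ^ (e i) := (pow_dvd_pow l hlt).trans h
  rw [← Finset.add_sum_erase _ _ (Finset.mem_univ i0)] at h1
  have h2 : l ^ (e i0 + 1) ∣ ∑ i ∈ Finset.univ.erase i0, d i * l ^ (e i) := by
    refine Finset.dvd_sum fun i hi => ?_
    by_cases hdi : d i = 0
    · simp [hdi]
    · have h3 := hmin i (by simpa using hdi)
      have h4 : e i ≠ e i0 := fun hh => (Finset.mem_erase.1 hi).1 (he hh)
      exact Dvd.dvd.mul_left (pow_dvd_pow l (by omega)) _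
  have h3 : l ^ (e i0 + 1) ∣ d i0 * l ^ (e i0) := (dvd_add_left h2).1 h1
  rw [pow_succ, mul_comm (d i0)] at h3
  have h4 : l ∣ d i0 := (mul_dvd_mul_iff_left (by positivity)).1 h3
  have h5 := Int.le_of_dvd (abs_pos.2 hi0') ((dvd_abs _ _).2 h4)
  exact absurd (hd i0) (by omega)

/-- the free part -/
def Phi {k W : ℕ} (l : ℤ) (φ : Fin k → Fin W) : ℤ := ∑ a, ((φ a : ℕ) : ℤ) * l ^ (a : ℕ)

lemma count_Phi {k W : ℕ} (l : ℤ) (hW : (W : ℤ) ≤ l) (c d : ℤ) (hc : IsCoprime c l) (j : ℕ)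
    (hj : j ≤ k) :
    (Finset.univ.filter fun φ : Fin k → Fin W => l ^ j ∣ c * Phi l φ + d).card * W ^ j ≤ W ^ k := by
  classical
  set S := Finset.univ.filter fun φ : Fin k → Fin W => l ^ j ∣ c * Phi l φ + d with hS
  rcases S.eq_empty_or_nonempty with h0 | ⟨φ0, hφ0⟩
  · simp [h0]
  have hsub : S ⊆ Fintype.piFinset fun a : Fin k =>
      if (a : ℕ) < j then ({φ0 a} : Finset (Fin W)) else Finset.univ := by
    intro φ hφ
    rw [Fintype.mem_piFinset]
    intro a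
    split_ifs with ha
    · have h1 : l ^ j ∣ c * Phi l φ + d := by simpa [hS] using hφ
      have h2 : l ^ j ∣ c * Phi l φ0 + d := by simpa [hS] using hφ0
      have h3 : l ^ j ∣ c * (Phi l φ - Phi l φ0) := dvd_eq (dvd_sub h1 h2) (by ring)
      have h4 : l ^ j ∣ Phi l φ - Phi l φ0 :=
        (IsCoprime.pow_left (m := j) hc.symm).dvd_of_dvd_mul_left h3
      have h5 : Phi l φ - Phi l φ0 =
          ∑ a : Fin k, (((φ a : ℕ) : ℤ) - ((φ0 a : ℕ) : ℤ)) * l ^ (a : ℕ) := by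
        unfold Phi
        rw [← Finset.sum_sub_distrib]
        exact Finset.sum_congr rfl fun a _ => by ring
      rw [h5] at h4
      have h6 := digits_unique (fun a : Fin k => (a : ℕ)) Fin.val_injective _ l (fun a => by
        have := (φ a).2
        have := (φ0 a).2
        rw [abs_lt]; constructor <;> omega) j h4 a ha
      rw [Finset.mem_singleton]
      apply Fin.ext
      omega
    · exact Finset.mem_univ _
  have hcard := Finset.card_le_card hsub
  rw [Fintype.card_piFinset] at hcard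
  have e1 : W ^ j = ∏ a : Fin k, (if (a : ℕ) < j then W else 1) := by
    rw [Finset.prod_ite]
    simp [Fin.card_filter_val_lt, hj]
  calc S.card * W ^ j ≤ (∏ a : Fin k, (if (a : ℕ) < j then ({φ0 a} : Finset (Fin W))
        else Finset.univ).card) * W ^ j := Nat.mul_le_mul_right _ hcard
    _ = ∏ a : Fin k, W := by
        rw [e1, ← Finset.prod_mul_distrib]
        refine Finset.prod_congr rfl fun a _ => ?_
        split_ifs <;> simp
    _ = W ^ k := by simp

section Enc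

variable {t : ℕ} {L : Type} (f g h : Fin t → L → ℕ) (p : ℕ) (l : ℤ) (τ : ℕ) {k W : ℕ}

/-- first coordinate -/
def xv (s : L × (Fin k → Fin W)) : ℤ := ∑ α, (f α s.1 : ℤ) * l ^ (2 ^ (α : ℕ)) + p * Phi l s.2
/-- second coordinate -/
def yv (i : L) : ℤ := ∑ α, (g α i : ℤ) * l ^ (2 ^ (α : ℕ))
/-- third coordinate -/
def zv (i : L) : ℤ := 1 + ∑ α, (h α i : ℤ) * l ^ (τ - 2 ^ ((α : ℕ) + 1))

/-- polynomial versions -/
noncomputable def xl (i : L) : ℤ[X] := ∑ α, C (f α i : ℤ) * X ^ (2 ^ (α : ℕ))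
noncomputable def xP (s : L × (Fin k → Fin W)) : ℤ[X] :=
  xl f s.1 + C (p : ℤ) * ∑ a, C ((s.2 a : ℕ) : ℤ) * X ^ (a : ℕ)
noncomputable def zP (i : L) : ℤ[X] := 1 + ∑ α, C (h α i : ℤ) * X ^ (τ - 2 ^ ((α : ℕ) + 1))

lemma eval_xP (s : L × (Fin k → Fin W)) : (xP f p s).eval l = xv f p l s := by
  simp [xP, xl, xv, Phi, eval_finsetSum]

lemma eval_yP (i : L) : (xl g i).eval l = yv g l i := by
  simp [xl, yv, eval_finsetSum]

lemma eval_zP (i : L) : (zP h τ i).eval l = zv h l τ i := by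
  simp [zP, zv, eval_finsetSum]

lemma sum_abs_le (hf : ∀ α i, f α i < p) (i : L) : ∑ α, |(f α i : ℤ)| ≤ t * p := by
  calc ∑ α, |(f α i : ℤ)| ≤ ∑ _α : Fin t, (p : ℤ) := Finset.sum_le_sum fun α _ => by
        have := hf α i
        rw [Nat.abs_cast]; omega
    _ = t * p := by simp

lemma coeff_xP_bound (hf : ∀ α i, f α i < p) (s : L × (Fin k → Fin W)) (a : ℕ) :
    |(xP f p s).coeff a| ≤ t * p + p * W := by
  unfold xP
  rw [coeff_add]
  refine le_trans (abs_add_le _ _) (add_le_add ?_ ?_)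
  · have := sparse_mul_bound (1 : ℤ[X]) 1 (fun a => by
      rw [coeff_one]; split_ifs <;> simp) (fun α => (f α s.1 : ℤ)) (fun α : Fin t => 2 ^ (α : ℕ)) a
    rw [one_mul, one_mul] at this
    exact this.trans (sum_abs_le f p hf s.1)
  · rw [coeff_C_mul, abs_mul, Nat.abs_cast]
    refine mul_le_mul_of_nonneg_left ?_ (by positivity)
    rw [finsetSum_coeff]
    simp only [coeff_C_mul, coeff_X_pow]
    by_cases ha : a < k
    · rw [Finset.sum_eq_single (⟨a, ha⟩ : Fin k)]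
      · have := (s.2 ⟨a, ha⟩).2
        simp only [if_true, mul_one, Nat.abs_cast]
        omega
      · intro b _ hb
        rw [if_neg, mul_zero]
        intro hh
        exact hb (Fin.ext hh.symm)
      · simp
    · rw [Finset.sum_eq_zero]
      · simp
      · intro b _
        rw [if_neg, mul_zero]
        intro hh
        have := b.2
        omega

lemma coeff_xyz_bound (hf : ∀ α i, f α i < p) (hg : ∀ α i, g α i < p) (hh : ∀ α i, h α i < p)
    (s : L × (Fin k → Fin W)) (b c : L) (a : ℕ) :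
    |(xP f p s * xl g b * zP h τ c).coeff a| ≤ (t * p + p * W) * (t * p) * (1 + t * p) := by
  have h1 : ∀ a, |(xP f p s * xl g b).coeff a| ≤ (t * p + p * W) * (t * p) := fun a =>
    (sparse_mul_bound _ _ (coeff_xP_bound f p hf s) _ _ a).trans
      (mul_le_mul_of_nonneg_left (sum_abs_le g p hg b) (by positivity))
  have h2 := (sparse_mul_bound _ _ h1 (fun α => (h α c : ℤ))
    (fun α : Fin t => τ - 2 ^ ((α : ℕ) + 1)) a).trans
      (mul_le_mul_of_nonneg_left (sum_abs_le h p hh c) (by positivity))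
  unfold zP
  rw [mul_add, mul_one, coeff_add]
  refine le_trans (abs_add_le _ _) ?_
  have := h1 a
  linarith

lemma coeff_xyz_top (hτ : 2 ^ t < τ) (a b c : L) :
    (xl f a * xl g b * zP h τ c).coeff τ = ∑ α, (f α a : ℤ) * g α b * h α c := by
  have hpow : ∀ α : Fin t, 2 ^ ((α : ℕ) + 1) ≤ 2 ^ t := fun α =>
    Nat.pow_le_pow_right (by norm_num) α.2
  have e1 : xl f a * xl g b = ∑ α, ∑ β, C ((f α a : ℤ) * g β b) * X ^ (2 ^ (α : ℕ) + 2 ^ (β : ℕ)) := by
    unfold xl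
    rw [Finset.sum_mul_sum]
    refine Finset.sum_congr rfl fun α _ => Finset.sum_congr rfl fun β _ => ?_
    rw [C_mul, pow_add]; ring
  have e2 : (xl f a * xl g b).coeff τ = 0 := by
    rw [e1]
    simp only [finsetSum_coeff, coeff_C_mul, coeff_X_pow]
    refine Finset.sum_eq_zero fun α _ => Finset.sum_eq_zero fun β _ => ?_
    rw [if_neg, mul_zero]
    have := hpow α
    have := hpow β
    rw [pow_succ] at *
    omega
  unfold zP
  rw [mul_add, mul_one, coeff_add, e2, zero_add, e1, Finset.sum_mul, finsetSum_coeff]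
  refine Finset.sum_congr rfl fun α _ => ?_
  rw [Finset.sum_mul_sum]
  have e3 : ∀ β γ : Fin t, C ((f α a : ℤ) * g β b) * X ^ (2 ^ (α : ℕ) + 2 ^ (β : ℕ)) *
      (C (h γ c : ℤ) * X ^ (τ - 2 ^ ((γ : ℕ) + 1))) =
      C ((f α a : ℤ) * g β b * h γ c) * X ^ (2 ^ (α : ℕ) + 2 ^ (β : ℕ) + (τ - 2 ^ ((γ : ℕ) + 1))) := by
    intro β γ
    rw [C_mul (a := (f α a : ℤ) * g β b), pow_add (X : ℤ[X]) (2 ^ (α : ℕ) + 2 ^ (β : ℕ))]; ring
  simp only [e3, finsetSum_coeff, coeff_C_mul, coeff_X_pow]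
  rw [Finset.sum_eq_single α]
  · rw [Finset.sum_eq_single α]
    · rw [if_pos, mul_one]
      have := hpow α
      rw [pow_succ] at *
      omega
    · intro γ _ hγ
      rw [if_neg, mul_zero]
      intro hh
      have := hpow γ
      have := two_pow_add α α γ (by omega)
      exact hγ (Fin.ext this.1.symm)
    · simp
  · intro β _ hβ
    refine Finset.sum_eq_zero fun γ _ => ?_
    rw [if_neg, mul_zero]
    intro hh
    have := hpow γ
    have := two_pow_add α β γ (by omega)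
    exact hβ (Fin.ext (by omega))
  · simp

lemma coeff_xyz_mod (hτ : 2 ^ t < τ) (s : L × (Fin k → Fin W)) (b c : L) :
    (p : ℤ) ∣ (xP f p s * xl g b * zP h τ c).coeff τ - ∑ α, (f α s.1 : ℤ) * g α b * h α c := by
  rw [← coeff_xyz_top f g h τ hτ]
  unfold xP
  rw [add_mul, add_mul, coeff_add, add_sub_cancel_left, mul_assoc, mul_assoc, coeff_C_mul]
  exact Dvd.intro _ rfl

/-- Distinct labels force a large determinant. -/
theorem far (hf : ∀ α i, f α i < p) (hg : ∀ α i, g α i < p) (hh : ∀ α i, h α i < p)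
    (hτ : 2 ^ t < τ)
    (hl : 24 * ((t * p + p * W) * (t * p) * (1 + t * p) : ℤ) ≤ l)
    (s1 s2 s3 : L × (Fin k → Fin W))
    (hnd : ¬ (p : ℤ) ∣ ∑ α, dd (fun i => (f α i : ℤ)) (fun i => (g α i : ℤ))
      (fun i => (h α i : ℤ)) s1.1 s2.1 s3.1)
    (D : ℤ) (hD : l ^ (τ + 1) ∣
      D - dd (xv f p l) (fun s => yv g l s.1) (fun s => zv h l τ s.1) s1 s2 s3) :
    l ^ τ ≤ 2 * |D| := by
  let T : (L × (Fin k → Fin W)) → L → L → ℤ[X] := fun s b c => xP f p s * xl g b * zP h τ c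
  let P : ℤ[X] := T s1 s2.1 s3.1 - T s1 s3.1 s2.1 - T s2 s1.1 s3.1 + T s2 s3.1 s1.1
    + T s3 s1.1 s2.1 - T s3 s2.1 s1.1
  have hev : P.eval l = dd (xv f p l) (fun s => yv g l s.1) (fun s => zv h l τ s.1) s1 s2 s3 := by
    simp only [P, T, eval_sub, eval_add, eval_mul, eval_xP, eval_yP, eval_zP, dd]
    ring
  refine top_digit P (6 * ((t * p + p * W) * (t * p) * (1 + t * p) : ℤ)) l τ (fun j => ?_)
    (by linarith) ?_ D (by rw [hev]; exact hD)
  · have b1 := coeff_xyz_bound f g h p τ hf hg hh s1 s2.1 s3.1 j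
    have b2 := coeff_xyz_bound f g h p τ hf hg hh s1 s3.1 s2.1 j
    have b3 := coeff_xyz_bound f g h p τ hf hg hh s2 s1.1 s3.1 j
    have b4 := coeff_xyz_bound f g h p τ hf hg hh s2 s3.1 s1.1 j
    have b5 := coeff_xyz_bound f g h p τ hf hg hh s3 s1.1 s2.1 j
    have b6 := coeff_xyz_bound f g h p τ hf hg hh s3 s2.1 s1.1 j
    simp only [P, T, coeff_sub, coeff_add]
    rw [abs_le] at *
    constructor <;> linarith [b1.1, b1.2, b2.1, b2.2, b3.1, b3.2, b4.1, b4.2, b5.1, b5.2, b6.1, b6.2]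
  · intro h0
    apply hnd
    have b1 := coeff_xyz_mod f g h p τ hτ s1 s2.1 s3.1
    have b2 := coeff_xyz_mod f g h p τ hτ s1 s3.1 s2.1
    have b3 := coeff_xyz_mod f g h p τ hτ s2 s1.1 s3.1
    have b4 := coeff_xyz_mod f g h p τ hτ s2 s3.1 s1.1
    have b5 := coeff_xyz_mod f g h p τ hτ s3 s1.1 s2.1
    have b6 := coeff_xyz_mod f g h p τ hτ s3 s2.1 s1.1
    simp only [P, T, coeff_sub, coeff_add] at h0
    have e : ∑ α, dd (fun i => (f α i : ℤ)) (fun i => (g α i : ℤ))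
        (fun i => (h α i : ℤ)) s1.1 s2.1 s3.1 =
        ∑ α, (f α s1.1 : ℤ) * g α s2.1 * h α s3.1 - ∑ α, (f α s1.1 : ℤ) * g α s3.1 * h α s2.1
        - ∑ α, (f α s2.1 : ℤ) * g α s1.1 * h α s3.1 + ∑ α, (f α s2.1 : ℤ) * g α s3.1 * h α s1.1
        + ∑ α, (f α s3.1 : ℤ) * g α s1.1 * h α s2.1 - ∑ α, (f α s3.1 : ℤ) * g α s2.1 * h α s1.1 := by
      simp only [← Finset.sum_sub_distrib, ← Finset.sum_add_distrib]
      exact Finset.sum_congr rfl fun α _ => by unfold dd; ring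
    rw [e]
    have := dvd_sub (dvd_add (dvd_add (dvd_sub (dvd_sub b1 b2) b3) b4) b5) b6
    rw [← dvd_neg] at this
    exact dvd_eq this (by linarith)

/-- `z ≡ 1` modulo `l ^ j` when `j + 2 ^ t ≤ τ`. -/
lemma zv_mod (j : ℕ) (hj : j + 2 ^ t ≤ τ) (i : L) : l ^ j ∣ zv h l τ i - 1 := by
  unfold zv
  rw [add_sub_cancel_left]
  refine Finset.dvd_sum fun α _ => Dvd.dvd.mul_left (pow_dvd_pow l ?_) _
  have : 2 ^ ((α : ℕ) + 1) ≤ 2 ^ t := Nat.pow_le_pow_right (by norm_num) α.2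
  omega

lemma zv_coprime (hτ : 2 ^ t < τ) (i : L) : IsCoprime (zv h l τ i) l := by
  obtain ⟨c, hc⟩ := zv_mod h l τ 1 (by omega) i
  exact ⟨1, -c, by linear_combination hc⟩

lemma yv_sep (hg : ∀ α i, g α i < p) (hpl : (p : ℤ) ≤ l) (a b : L) (hab : ∃ α, g α a ≠ g α b) :
    ¬ l ^ (2 ^ t) ∣ yv g l a - yv g l b := by
  intro hd
  obtain ⟨α, hα⟩ := hab
  have e : yv g l a - yv g l b = ∑ α : Fin t, ((g α a : ℤ) - g α b) * l ^ (2 ^ (α : ℕ)) := by
    unfold yv
    rw [← Finset.sum_sub_distrib]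
    exact Finset.sum_congr rfl fun α _ => by ring
  rw [e] at hd
  have := digits_unique (fun α : Fin t => 2 ^ (α : ℕ))
    (fun a b hab => Fin.ext (Nat.pow_right_injective (le_refl 2) hab)) _ l (fun α => by
      have := hg α a
      have := hg α b
      rw [abs_lt]; constructor <;> omega) _ hd α (Nat.pow_lt_pow_right (by norm_num) α.2)
  omega

end Enc

end Crest.Agent.R32
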