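import Mathlib

/-!
Row 32: counting lattice points in planes, and sums over dual vectors.
-/

set_option autoImplicit false

namespace Crest.Agent.R32

open Finset

abbrev V3 := Fin 3 → ℤ

def nrm (v : V3) : ℤ := max |v 0| (max |v 1| |v 2|)
def cr (a b : V3) : V3 := ![a 1 * b 2 - a 2 * b 1, a 2 * b 0 - a 0 * b 2, a 0 * b 1 - a 1 * b 0]
def dt (a b : V3) : ℤ := a 0 * b 0 + a 1 * b 1 + a 2 * b 2
noncomputable def box (Y : ℕ) : Finset V3 := Fintype.piFinset fun _ => Finset.Icc (-(Y : ℤ)) Y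

@[simp] lemma cr_zero (a b : V3) : cr a b 0 = a 1 * b 2 - a 2 * b 1 := rfl
@[simp] lemma cr_one (a b : V3) : cr a b 1 = a 2 * b 0 - a 0 * b 2 := rfl
@[simp] lemma cr_two (a b : V3) : cr a b 2 = a 0 * b 1 - a 1 * b 0 := rfl

lemma v3_ext {a b : V3} (h0 : a 0 = b 0) (h1 : a 1 = b 1) (h2 : a 2 = b 2) : a = b := by
  funext i; fin_cases i <;> assumption

lemma v3_eq_zero {a : V3} : a = 0 ↔ a 0 = 0 ∧ a 1 = 0 ∧ a 2 = 0 :=
  ⟨fun h => by simp [h], fun h => v3_ext h.1 h.2.1 h.2.2⟩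

lemma le_nrm (v : V3) (i : Fin 3) : |v i| ≤ nrm v := by
  unfold nrm
  fin_cases i
  · exact le_max_left _ _
  · exact le_trans (le_max_left _ _) (le_max_right _ _)
  · exact le_trans (le_max_right _ _) (le_max_right _ _)

lemma exists_nrm (v : V3) : ∃ i, |v i| = nrm v := by
  unfold nrm
  rcases max_choice |v 0| (max |v 1| |v 2|) with h | h
  · exact ⟨0, h.symm⟩
  · rcases max_choice |v 1| |v 2| with h' | h'
    · exact ⟨1, by rw [h, h']⟩
    · exact ⟨2, by rw [h, h']⟩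

lemma nrm_nonneg (v : V3) : 0 ≤ nrm v := le_trans (abs_nonneg _) (le_nrm v 0)

lemma nrm_le {v : V3} {c : ℤ} : nrm v ≤ c ↔ ∀ i, |v i| ≤ c := by
  constructor
  · exact fun h i => (le_nrm v i).trans h
  · intro h
    obtain ⟨i, hi⟩ := exists_nrm v
    rw [← hi]; exact h i

lemma nrm_pos {v : V3} (h : v ≠ 0) : 0 < nrm v := by
  by_contra hc
  apply h
  funext i
  have := le_nrm v i
  have h2 : |v i| ≤ 0 := by omega
  simpa using h2

lemma mem_box {Y : ℕ} {v : V3} : v ∈ box Y ↔ nrm v ≤ Y := by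
  rw [nrm_le, box, Fintype.mem_piFinset]
  simp only [Finset.mem_Icc, abs_le]

lemma card_box (Y : ℕ) : (box Y).card = (2 * Y + 1) ^ 3 := by
  rw [box, Fintype.card_piFinset]
  simp only [Int.card_Icc, Finset.prod_const, Finset.card_univ, Fintype.card_fin]
  congr 1
  omega

lemma nrm_smul (m : ℤ) (v : V3) : nrm (m • v) = |m| * nrm v := by
  apply le_antisymm
  · rw [nrm_le]
    intro i
    rw [Pi.smul_apply, smul_eq_mul, abs_mul]
    exact mul_le_mul_of_nonneg_left (le_nrm v i) (abs_nonneg _)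
  · obtain ⟨i, hi⟩ := exists_nrm v
    rw [← hi, ← abs_mul]
    exact le_nrm (m • v) i

lemma nrm_cr_le (a b : V3) : nrm (cr a b) ≤ 2 * nrm a * nrm b := by
  have key : ∀ i j k l : Fin 3, |a i * b j - a k * b l| ≤ 2 * nrm a * nrm b := by
    intro i j k l
    refine le_trans (abs_sub _ _) ?_
    rw [abs_mul, abs_mul]
    have h1 := mul_le_mul (le_nrm a i) (le_nrm b j) (abs_nonneg _) (nrm_nonneg a)
    have h2 := mul_le_mul (le_nrm a k) (le_nrm b l) (abs_nonneg _) (nrm_nonneg a)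
    linarith
  rw [nrm_le]
  intro i
  fin_cases i
  · exact key 1 2 2 1
  · exact key 2 0 0 2
  · exact key 0 1 1 0

lemma cr_parallel (κ a b c : V3) (ha : dt κ a = 0) (hb : dt κ b = 0) :
    dt κ c • cr a b = dt (cr a b) c • κ := by
  unfold dt at *
  apply v3_ext <;> simp only [Pi.smul_apply, smul_eq_mul, cr_zero, cr_one, cr_two]
  · linear_combination (c 1 * b 2 - c 2 * b 1) * ha - (c 1 * a 2 - c 2 * a 1) * hb
  · linear_combination (c 2 * b 0 - c 0 * b 2) * ha - (c 2 * a 0 - c 0 * a 2) * hb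
  · linear_combination (c 0 * b 1 - c 1 * b 0) * ha - (c 0 * a 1 - c 1 * a 0) * hb

lemma dt_smul (m : ℤ) (a b : V3) : dt (m • a) b = m * dt a b := by
  simp [dt]; ring

lemma dt_sub (a b c : V3) : dt a (b - c) = dt a b - dt a c := by
  simp [dt]; ring

lemma dt_neg (a b : V3) : dt a (-b) = -dt a b := by
  simp [dt]; ring

lemma cr_sub (a b c : V3) : cr a (b - c) = cr a b - cr a c := by
  apply v3_ext <;> simp <;> ring

lemma cr_eq_zero_comp {e d : V3} (h : cr e d = 0) (i j : Fin 3) : e i * d j = e j * d i := by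
  rw [v3_eq_zero] at h
  simp only [cr_zero, cr_one, cr_two] at h
  obtain ⟨h0, h1, h2⟩ := h
  fin_cases i <;> fin_cases j <;> simp <;> linarith

lemma cr_trans {e a b : V3} (he : e ≠ 0) (ha : cr e a = 0) (hb : cr e b = 0) : cr a b = 0 := by
  obtain ⟨i, hi⟩ : ∃ i, e i ≠ 0 := by
    by_contra hc
    push Not at hc
    exact he (funext hc)
  have key : ∀ j k, a j * b k - a k * b j = 0 := by
    intro j k
    have h1 := cr_eq_zero_comp ha i j
    have h2 := cr_eq_zero_comp ha i k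
    have h3 := cr_eq_zero_comp hb i j
    have h4 := cr_eq_zero_comp hb i k
    have : e i * e i * (a j * b k - a k * b j) = 0 := by
      linear_combination (e i * b k) * h1 + (e j * a i) * h4 - (e i * b j) * h2 - (e k * a i) * h3
    rcases mul_eq_zero.1 this with h | h
    · exact absurd (mul_self_eq_zero.1 h) hi
    · exact h
  exact v3_ext (key 1 2) (key 2 0) (key 0 1)

section Lat

variable (Λ : AddSubgroup V3) (h : ℕ)

/-- `κ` is an `h`-scaled primitive dual vector. -/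
def Good (κ : V3) : Prop := (∀ r ∈ Λ, (h : ℤ) ∣ dt κ r) ∧ ∃ r ∈ Λ, dt κ r = h

open Classical in
/-- lattice points of the box in the plane orthogonal to `κ` -/
noncomputable def Gam (κ : V3) (Y : ℕ) : Finset V3 := (box Y).filter fun r => r ∈ Λ ∧ dt κ r = 0

lemma mem_Gam {κ r : V3} {Y : ℕ} : r ∈ Gam Λ κ Y ↔ nrm r ≤ Y ∧ r ∈ Λ ∧ dt κ r = 0 := by
  classical
  simp only [Gam, Finset.mem_filter, mem_box]

lemma exists_good (hh : 0 < h) (H1 : ∀ v : V3, (h : ℤ) • v ∈ Λ) (ν : V3) (hν : ν ≠ 0) :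
    ∃ (κ : V3) (m : ℤ), Good Λ h κ ∧ 0 < m ∧ (h : ℤ) • ν = m • κ := by
  let φ : V3 →+ ℤ :=
    { toFun := fun r => dt ν r
      map_zero' := by simp [dt]
      map_add' := fun a b => by simp [dt]; ring }
  obtain ⟨a, ha⟩ := Int.subgroup_cyclic (Λ.map φ)
  have hdiv : ∀ r ∈ Λ, a ∣ dt ν r := by
    intro r hr
    have : dt ν r ∈ Λ.map φ := ⟨r, hr, rfl⟩
    rw [ha, AddSubgroup.mem_closure_singleton] at this
    obtain ⟨n, hn⟩ := this
    exact ⟨n, by rw [← hn, smul_eq_mul, mul_comm]⟩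
  have hex : ∃ r ∈ Λ, dt ν r = |a| := by
    have : a ∈ Λ.map φ := by rw [ha]; exact AddSubgroup.subset_closure rfl
    obtain ⟨r, hr, hra⟩ := this
    rcases abs_choice a with h1 | h1
    · exact ⟨r, hr, by rw [h1]; exact hra⟩
    · exact ⟨-r, Λ.neg_mem hr, by rw [h1, dt_neg]; exact congrArg Neg.neg hra⟩
  have hcomp : ∀ i, |a| ∣ h * ν i := by
    intro i
    rw [abs_dvd]
    have := hdiv _ (H1 (Pi.single i 1))
    have e : dt ν ((h : ℤ) • (Pi.single i 1 : V3)) = h * ν i := by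
      fin_cases i <;> simp [dt] <;> ring
    rwa [e] at this
  have ha0 : 0 < |a| := by
    rw [abs_pos]
    rintro rfl
    apply hν
    funext i
    have := hcomp i
    simp only [abs_zero, zero_dvd_iff, mul_eq_zero] at this
    rcases this with h1 | h1
    · omega
    · exact h1
  choose κ hκ using hcomp
  have heq : (h : ℤ) • ν = |a| • κ := funext fun i => hκ i
  refine ⟨κ, |a|, ⟨fun r hr => ?_, ?_⟩, ha0, heq⟩
  · obtain ⟨n, hn⟩ := (abs_dvd a _).2 (hdiv r hr)
    have h1 := congrArg (fun v => dt v r) heq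
    simp only [dt_smul] at h1
    refine ⟨n, mul_left_cancel₀ ha0.ne' ?_⟩
    rw [← h1, hn]; ring
  · obtain ⟨r, hr, hra⟩ := hex
    refine ⟨r, hr, mul_left_cancel₀ ha0.ne' ?_⟩
    have h1 := congrArg (fun v => dt v r) heq
    simp only [dt_smul] at h1
    rw [← h1, hra]; ring

lemma card_Gam (hh : 0 < h) (I : ℕ) (hI : 0 < I)
    (H2 : ∀ a ∈ Λ, ∀ b ∈ Λ, ∀ c ∈ Λ, (I : ℤ) ∣ dt (cr a b) c)
    (κ : V3) (hκ : Good Λ h κ) (Y : ℕ) (r1 r2 : V3) (hr1 : r1 ∈ Gam Λ κ Y) (hr2 : r2 ∈ Gam Λ κ Y)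
    (hne : cr r1 r2 ≠ 0) : ((Gam Λ κ Y).card : ℤ) * (I * nrm κ) ≤ 18 * h * Y ^ 2 := by
  classical
  obtain ⟨r3, hr3, hr3h⟩ := hκ.2
  have hκ0 : κ ≠ 0 := by
    rintro rfl
    simp [dt] at hr3h
    omega
  have hκp := nrm_pos hκ0
  have hr10 : r1 ≠ 0 := by
    rintro rfl
    apply hne
    apply v3_ext <;> simp
  have hr1' := (mem_Gam Λ).1 hr1
  have hr2' := (mem_Gam Λ).1 hr2
  have hnon : ((Gam Λ κ (2 * Y)).filter fun r => r ≠ 0).Nonempty :=
    ⟨r1, Finset.mem_filter.2 ⟨(mem_Gam Λ).2 ⟨by push_cast; omega, hr1'.2⟩, hr10⟩⟩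
  obtain ⟨e, he, hmin⟩ := Finset.exists_min_image _ nrm hnon
  obtain ⟨he1, he0⟩ := Finset.mem_filter.1 he
  have he' := (mem_Gam Λ).1 he1
  have hlam : 0 < nrm e := nrm_pos he0
  have hlamY : nrm e ≤ Y := le_trans (hmin r1 (Finset.mem_filter.2
    ⟨(mem_Gam Λ).2 ⟨by push_cast; omega, hr1'.2⟩, hr10⟩)) hr1'.1
  obtain ⟨i0, hi0⟩ := exists_nrm e
  set lam := nrm e with hlam_def
  set D : ℤ := I * nrm κ with hD
  have hDp : 0 < D := by positivity
  set Z : ℤ := (2 * h * lam * Y) / D with hZ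
  set U : ℤ := (2 * Y) / lam with hU
  have hm : ∀ r ∈ Gam Λ κ Y, (h : ℤ) • cr e r = dt (cr e r) r3 • κ := by
    intro r hr
    rw [← hr3h]
    exact cr_parallel κ e r r3 he'.2.2 ((mem_Gam Λ).1 hr).2.2
  have hm' : ∀ r ∈ Gam Λ κ Y, dt (cr e r) r3 = I * (dt (cr e r) r3 / I) := fun r hr =>
    (Int.mul_ediv_cancel' (H2 e he'.2.1 r ((mem_Gam Λ).1 hr).2.1 r3 hr3)).symm
  have hbd : ∀ r ∈ Gam Λ κ Y, |dt (cr e r) r3 / I| ≤ Z := by
    intro r hr
    apply Int.le_ediv_of_mul_le hDp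
    have h1 := congrArg nrm (hm r hr)
    rw [nrm_smul, nrm_smul, hm' r hr, abs_mul, Nat.abs_cast, Nat.abs_cast] at h1
    have h2 := nrm_cr_le e r
    have h3 := ((mem_Gam Λ).1 hr).1
    have h4 : nrm (cr e r) ≤ 2 * lam * Y := h2.trans (mul_le_mul_of_nonneg_left h3 (by positivity))
    calc |dt (cr e r) r3 / I| * D = h * nrm (cr e r) := by rw [h1, hD]; ring
      _ ≤ h * (2 * lam * Y) := mul_le_mul_of_nonneg_left h4 (by positivity)
      _ = 2 * h * lam * Y := by ring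
  have hZ1 : 1 ≤ Z := by
    have key : ∀ r ∈ Gam Λ κ Y, cr e r ≠ 0 → 1 ≤ Z := by
      intro r hr hcr
      refine le_trans (Int.one_le_abs ?_) (hbd r hr)
      intro h0
      have h1 := hm r hr
      rw [hm' r hr, h0, mul_zero, zero_smul, smul_eq_zero] at h1
      rcases h1 with h1 | h1
      · omega
      · exact hcr h1
    by_cases h1 : cr e r1 = 0
    · by_cases h2 : cr e r2 = 0
      · exact absurd (cr_trans he0 h1 h2) hne
      · exact key r2 hr2 h2
    · exact key r1 hr1 h1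
  have hU0 : 0 ≤ U := Int.ediv_nonneg (by positivity) hlam.le
  have hcard : (Gam Λ κ Y).card ≤ (Finset.Icc (-Z) Z ×ˢ Finset.Icc 0 U).card := by
    apply Finset.card_le_card_of_injOn (fun r => (dt (cr e r) r3 / I, (r i0 + Y) / lam))
    · intro r hr
      have hr' : r ∈ Gam Λ κ Y := hr
      have h1 := abs_le.1 (hbd r hr')
      have h2 := abs_le.1 ((le_nrm r i0).trans ((mem_Gam Λ).1 hr').1)
      simp only [Finset.coe_product, Set.mem_prod, Finset.mem_coe, Finset.mem_Icc]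
      exact ⟨h1, Int.ediv_nonneg (by omega) hlam.le, Int.ediv_le_ediv hlam (by omega)⟩
    · intro r hr r' hr' hrr
      have hr : r ∈ Gam Λ κ Y := hr
      have hr' : r' ∈ Gam Λ κ Y := hr'
      simp only [Prod.mk.injEq] at hrr
      obtain ⟨e1, e2⟩ := hrr
      have h1 : cr e (r - r') = 0 := by
        have h2 : (h : ℤ) • cr e (r - r') = 0 := by
          rw [cr_sub, smul_sub, hm r hr, hm r' hr', hm' r hr, hm' r' hr', e1, sub_self]
        rcases smul_eq_zero.1 h2 with h3 | h3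
        · omega
        · exact h3
      by_contra hne'
      have hd0 : r - r' ≠ 0 := sub_ne_zero.2 hne'
      have hrr := (mem_Gam Λ).1 hr
      have hrr' := (mem_Gam Λ).1 hr'
      have hdm : r - r' ∈ (Gam Λ κ (2 * Y)).filter fun r => r ≠ 0 := by
        refine Finset.mem_filter.2 ⟨(mem_Gam Λ).2 ⟨?_, Λ.sub_mem hrr.2.1 hrr'.2.1, ?_⟩, hd0⟩
        · rw [nrm_le]
          intro i
          have a1 := (le_nrm r i).trans hrr.1
          have a2 := (le_nrm r' i).trans hrr'.1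
          have := abs_sub (r i) (r' i)
          simp only [Pi.sub_apply]
          push_cast; omega
        · rw [dt_sub, hrr.2.2, hrr'.2.2, sub_self]
      have h3 := hmin _ hdm
      obtain ⟨j, hj⟩ := exists_nrm (r - r')
      have h4 := congrArg abs (cr_eq_zero_comp h1 i0 j)
      rw [abs_mul, abs_mul, hi0, hj] at h4
      have h5 : |e j| * |(r - r') i0| ≤ lam * |(r - r') i0| :=
        mul_le_mul_of_nonneg_right (le_nrm e j) (abs_nonneg _)
      have h6 : nrm (r - r') ≤ |(r - r') i0| := by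
        rw [← h4] at h5
        exact le_of_mul_le_mul_left h5 hlam
      have h7 := Int.mul_ediv_add_emod (r i0 + Y) lam
      have h8 := Int.mul_ediv_add_emod (r' i0 + Y) lam
      have h9 := Int.emod_nonneg (r i0 + Y) hlam.ne'
      have h10 := Int.emod_nonneg (r' i0 + Y) hlam.ne'
      have h11 := Int.emod_lt_of_pos (r i0 + Y) hlam
      have h12 := Int.emod_lt_of_pos (r' i0 + Y) hlam
      rw [e2] at h7
      have h13 : |(r - r') i0| < lam := by
        simp only [Pi.sub_apply]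
        rw [abs_lt]; constructor <;> linarith
      linarith
  have hcard' : ((Gam Λ κ Y).card : ℤ) ≤ (2 * Z + 1) * (U + 1) := by
    have : ((Finset.Icc (-Z) Z ×ˢ Finset.Icc 0 U).card : ℤ) = (2 * Z + 1) * (U + 1) := by
      rw [Finset.card_product, Int.card_Icc, Int.card_Icc]
      push_cast
      rw [Int.toNat_of_nonneg (by omega), Int.toNat_of_nonneg (by omega)]
      ring
    rw [← this]
    exact_mod_cast hcard
  have hZD : Z * D ≤ 2 * h * lam * Y := Int.ediv_mul_le _ hDp.ne'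
  have hUl : U * lam ≤ 2 * Y := Int.ediv_mul_le _ hlam.ne'
  calc ((Gam Λ κ Y).card : ℤ) * D ≤ (2 * Z + 1) * (U + 1) * D :=
        mul_le_mul_of_nonneg_right hcard' hDp.le
    _ ≤ (3 * Z) * (U + 1) * D := by gcongr; omega
    _ = 3 * (U + 1) * (Z * D) := by ring
    _ ≤ 3 * (U + 1) * (2 * h * lam * Y) := by gcongr
    _ = 6 * h * Y * (U * lam + lam) := by ring
    _ ≤ 6 * h * Y * (2 * Y + Y) := by gcongr
    _ = 18 * h * Y ^ 2 := by ring

end Lat

lemma sum_box_inv_cube (R : ℕ) :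
    ∑ n ∈ box R, (1 : ℝ) / ((nrm n : ℤ) : ℝ) ^ 3 ≤ 26 * (harmonic R : ℝ) := by
  induction R with
  | zero =>
    simp only [harmonic_zero, Rat.cast_zero, mul_zero]
    refine le_of_eq (Finset.sum_eq_zero fun n hn => ?_)
    have h1 := mem_box.1 hn
    have h2 := nrm_nonneg n
    have : nrm n = 0 := by omega
    simp [this]
  | succ R ih =>
    have hsub : box R ⊆ box (R + 1) := fun n hn => by
      rw [mem_box] at *; push_cast; omega
    rw [← Finset.sum_sdiff hsub, harmonic_succ]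
    have h1 : ∑ n ∈ box (R + 1) \ box R, (1 : ℝ) / ((nrm n : ℤ) : ℝ) ^ 3 =
        ∑ n ∈ box (R + 1) \ box R, (1 : ℝ) / ((R : ℝ) + 1) ^ 3 := by
      refine Finset.sum_congr rfl fun n hn => ?_
      rw [Finset.mem_sdiff, mem_box, mem_box] at hn
      have : nrm n = R + 1 := by push_cast at hn; omega
      rw [this]; push_cast; rfl
    rw [h1, Finset.sum_const, Finset.card_sdiff_of_subset hsub, card_box, card_box, nsmul_eq_mul,
      Nat.cast_sub (Nat.pow_le_pow_left (by omega) 3)]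
    push_cast
    have hR : (0 : ℝ) ≤ R := by positivity
    have h2 : ((2 * ((R : ℝ) + 1) + 1) ^ 3 - (2 * R + 1) ^ 3) * (1 / ((R : ℝ) + 1) ^ 3) ≤
        26 * ((R : ℝ) + 1)⁻¹ := by
      rw [mul_one_div, ← div_eq_mul_inv, div_le_div_iff₀ (by positivity) (by positivity)]
      nlinarith [mul_nonneg hR hR, mul_nonneg (mul_nonneg hR hR) hR]
    linarith

lemma sum_dual (h : ℕ) (hh : 0 < h) (K0 : Finset V3) (Ks : Finset V3) (R : ℕ) (ρ : ℝ) (hρ : 0 < ρ)
    (hK : ∀ κ ∈ Ks, (fun i => κ i % (h : ℤ)) ∈ K0)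
    (hlo : ∀ κ ∈ Ks, ρ ≤ ((nrm κ : ℤ) : ℝ)) (hhi : ∀ κ ∈ Ks, nrm κ ≤ R) :
    ∑ κ ∈ Ks, (1 : ℝ) / ((nrm κ : ℤ) : ℝ) ^ 3 ≤
      K0.card * (27 / ρ ^ 3 + 208 * (1 + Real.log R) / (h : ℝ) ^ 3) := by
  classical
  let w : V3 → ℝ := fun n => (if n ∈ box 1 then 1 / ρ ^ 3 else 0) +
    8 / (h : ℝ) ^ 3 * (1 / ((nrm n : ℤ) : ℝ) ^ 3)
  have hw0 : ∀ n, 0 ≤ w n := by
    intro n
    have : (0 : ℝ) ≤ ((nrm n : ℤ) : ℝ) := by exact_mod_cast nrm_nonneg n
    simp only [w]
    split_ifs <;> positivity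
  let F : V3 → V3 × V3 := fun κ => (fun i => κ i % (h : ℤ), fun i => κ i / (h : ℤ))
  have hF : Function.Injective F := by
    intro a b hab
    simp only [F, Prod.mk.injEq] at hab
    funext i
    have h1 := congrFun hab.1 i
    have h2 := congrFun hab.2 i
    rw [← Int.mul_ediv_add_emod (a i) h, ← Int.mul_ediv_add_emod (b i) h, h1, h2]
  have hhZ : (0 : ℤ) < h := by exact_mod_cast hh
  have hhR : (0 : ℝ) < h := by exact_mod_cast hh
  have step1 : ∀ κ ∈ Ks, (1 : ℝ) / ((nrm κ : ℤ) : ℝ) ^ 3 ≤ w (F κ).2 := by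
    intro κ hκ
    have hn0 : (0 : ℝ) ≤ ((nrm (F κ).2 : ℤ) : ℝ) := by exact_mod_cast nrm_nonneg _
    simp only [w]
    split_ifs with hb
    · have h1 : (1 : ℝ) / ((nrm κ : ℤ) : ℝ) ^ 3 ≤ 1 / ρ ^ 3 :=
        one_div_le_one_div_of_le (by positivity) (pow_le_pow_left₀ hρ.le (hlo κ hκ) 3)
      have h2 : 0 ≤ 8 / (h : ℝ) ^ 3 * (1 / ((nrm (F κ).2 : ℤ) : ℝ) ^ 3) := by positivity
      linarith
    · rw [mem_box] at hb
      obtain ⟨i, hi⟩ := exists_nrm (F κ).2
      have h1 := le_nrm κ i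
      have h2 := Int.mul_ediv_add_emod (κ i) h
      have h3 := Int.emod_nonneg (κ i) hhZ.ne'
      have h4 := Int.emod_lt_of_pos (κ i) hhZ
      have hi' : |κ i / h| = nrm (F κ).2 := hi
      have h5 : (h : ℤ) * nrm (F κ).2 ≤ 2 * nrm κ := by
        have h6 : |(h : ℤ) * (κ i / h)| = h * nrm (F κ).2 := by
          rw [abs_mul, hi', Nat.abs_cast]
        have h7 : |(h : ℤ) * (κ i / h)| ≤ |κ i| + h := by
          rw [abs_le]
          have := le_abs_self (κ i)
          have := neg_abs_le (κ i)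
          constructor <;> linarith
        have h8 : (h : ℤ) * 2 ≤ h * nrm (F κ).2 :=
          mul_le_mul_of_nonneg_left (by push_cast at hb; omega) hhZ.le
        linarith
      have h5' : (h : ℝ) * ((nrm (F κ).2 : ℤ) : ℝ) ≤ 2 * ((nrm κ : ℤ) : ℝ) := by exact_mod_cast h5
      have hnp : (0 : ℝ) < ((nrm (F κ).2 : ℤ) : ℝ) := by
        have : 0 < nrm (F κ).2 := by push_cast at hb; omega
        exact_mod_cast this
      have hκp : (0 : ℝ) < ((nrm κ : ℤ) : ℝ) := lt_of_lt_of_le hρ (hlo κ hκ)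
      rw [zero_add, div_mul_div_comm, div_le_div_iff₀ (by positivity) (by positivity)]
      have := pow_le_pow_left₀ (by positivity) h5' 3
      nlinarith
  have step2 : ∑ κ ∈ Ks, w (F κ).2 ≤ ∑ x ∈ K0 ×ˢ box R, w x.2 := by
    rw [← Finset.sum_image (s := Ks) (g := F) (f := fun x => w x.2) (fun a _ b _ hab => hF hab)]
    apply Finset.sum_le_sum_of_subset_of_nonneg
    · intro x hx
      obtain ⟨κ, hκ, rfl⟩ := Finset.mem_image.1 hx
      refine Finset.mem_product.2 ⟨hK κ hκ, ?_⟩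
      rw [mem_box, nrm_le]
      intro i
      exact (Int.abs_ediv_le_abs _ _).trans ((le_nrm κ i).trans (hhi κ hκ))
    · intro x _ _
      exact hw0 _
  have step3 : ∑ n ∈ box R, w n ≤ 27 / ρ ^ 3 + 208 * (1 + Real.log R) / (h : ℝ) ^ 3 := by
    simp only [w]
    rw [Finset.sum_add_distrib, ← Finset.mul_sum]
    apply add_le_add
    · rw [Finset.sum_ite_mem, Finset.sum_const, nsmul_eq_mul]
      have : ((box R ∩ box 1).card : ℝ) ≤ 27 := by
        have := Finset.card_le_card (Finset.inter_subset_right (s₁ := box R) (s₂ := box 1))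
        rw [card_box] at this
        exact_mod_cast this
      rw [mul_one_div]
      gcongr
    · have h1 := sum_box_inv_cube R
      have h2 := harmonic_le_one_add_log R
      calc 8 / (h : ℝ) ^ 3 * ∑ n ∈ box R, (1 : ℝ) / ((nrm n : ℤ) : ℝ) ^ 3
          ≤ 8 / (h : ℝ) ^ 3 * (26 * (1 + Real.log R)) := by gcongr; linarith
        _ = 208 * (1 + Real.log R) / (h : ℝ) ^ 3 := by ring
  calc ∑ κ ∈ Ks, (1 : ℝ) / ((nrm κ : ℤ) : ℝ) ^ 3 ≤ ∑ κ ∈ Ks, w (F κ).2 := Finset.sum_le_sum step1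
    _ ≤ ∑ x ∈ K0 ×ˢ box R, w x.2 := step2
    _ = K0.card * ∑ n ∈ box R, w n := by
        rw [Finset.sum_product]
        simp only [Finset.sum_const, nsmul_eq_mul]
    _ ≤ _ := mul_le_mul_of_nonneg_left step3 (by positivity)

end Crest.Agent.R32
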