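import Mathlib
import Crest.Agent.R32.Lattice

/-!
Row 32: counting 3 x 3 integer matrices with rows in a lattice and prescribed determinant.
-/

set_option autoImplicit false

namespace Crest.Agent.R32

open Finset

/-- determinant of a matrix given by rows -/
def det3 (A : Fin 3 → V3) : ℤ := dt (cr (A 0) (A 1)) (A 2)

lemma rows_ext {A B : Fin 3 → V3} (h0 : A 0 = B 0) (h1 : A 1 = B 1) (h2 : A 2 = B 2) : A = B := by
  funext i; fin_cases i <;> assumption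

lemma dt_cr_left (a b : V3) : dt (cr a b) a = 0 := by simp [dt]; ring
lemma dt_cr_right (a b : V3) : dt (cr a b) b = 0 := by simp [dt]; ring

lemma nrm_le_of_pos {Y : ℕ} {a : V3} (ha : ∀ j, 0 ≤ a j ∧ a j ≤ Y) : nrm a ≤ Y := by
  rw [nrm_le]; intro j; have := ha j; rw [abs_le]; constructor <;> omega

lemma nrm_sub_le_of_pos {Y : ℕ} {a b : V3} (ha : ∀ j, 0 ≤ a j ∧ a j ≤ Y)
    (hb : ∀ j, 0 ≤ b j ∧ b j ≤ Y) : nrm (a - b) ≤ Y := by
  rw [nrm_le]; intro j; have := ha j; have := hb j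
  rw [Pi.sub_apply, abs_le]; constructor <;> omega

lemma card_plane (ν : V3) (hν : ν ≠ 0) (c : ℤ) (Y : ℕ) :
    ((box Y).filter fun b => dt ν b = c).card ≤ (2 * Y + 1) ^ 2 := by
  have hc : (Finset.Icc (-(Y : ℤ)) Y ×ˢ Finset.Icc (-(Y : ℤ)) Y).card = (2 * Y + 1) ^ 2 := by
    rw [Finset.card_product, Int.card_Icc, sq]
    congr 1 <;> omega
  rw [← hc]
  have key : ∀ i j k : Fin 3, ν i ≠ 0 →
      (∀ b b' : V3, dt ν b = dt ν b' → b j = b' j → b k = b' k → b = b') →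
      ((box Y).filter fun b => dt ν b = c).card ≤
        (Finset.Icc (-(Y : ℤ)) Y ×ˢ Finset.Icc (-(Y : ℤ)) Y).card := by
    intro i j k _ hinj
    apply Finset.card_le_card_of_injOn (fun b => (b j, b k))
    · intro b hb
      have hb' := mem_box.1 (Finset.mem_filter.1 hb).1
      simp only [Finset.coe_product, Set.mem_prod, Finset.mem_coe, Finset.mem_Icc]
      exact ⟨abs_le.1 ((le_nrm b j).trans hb'), abs_le.1 ((le_nrm b k).trans hb')⟩
    · intro b hb b' hb' e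
      simp only [Prod.mk.injEq] at e
      exact hinj b b' ((Finset.mem_filter.1 hb).2.trans (Finset.mem_filter.1 hb').2.symm) e.1 e.2
  by_cases h0 : ν 0 = 0
  · by_cases h1 : ν 1 = 0
    · have h2 : ν 2 ≠ 0 := fun h2 => hν (v3_eq_zero.2 ⟨h0, h1, h2⟩)
      refine key 2 0 1 h2 fun b b' e e1 e2 => v3_ext e1 e2 (mul_left_cancel₀ h2 ?_)
      unfold dt at e; rw [e1, e2] at e; linarith
    · refine key 1 0 2 h1 fun b b' e e1 e2 => v3_ext e1 (mul_left_cancel₀ h1 ?_) e2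
      unfold dt at e; rw [e1, e2] at e; linarith
  · refine key 0 1 2 h0 fun b b' e e1 e2 => v3_ext (mul_left_cancel₀ h0 ?_) e1 e2
    unfold dt at e; rw [e1, e2] at e; linarith

lemma card_line (a : V3) (ha : a ≠ 0) (ν : V3) (Y : ℕ) :
    ((box Y).filter fun b => cr a b = ν).card ≤ 2 * Y + 1 := by
  obtain ⟨i, hi⟩ : ∃ i, a i ≠ 0 := by
    by_contra hc
    push Not at hc
    exact ha (funext hc)
  have hc : (Finset.Icc (-(Y : ℤ)) Y).card = 2 * Y + 1 := by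
    rw [Int.card_Icc]; omega
  rw [← hc]
  apply Finset.card_le_card_of_injOn (fun b => b i)
  · intro b hb
    have hb' := mem_box.1 (Finset.mem_filter.1 hb).1
    simp only [Finset.mem_coe, Finset.mem_Icc]
    exact abs_le.1 ((le_nrm b i).trans hb')
  · intro b hb b' hb' e
    have e' : b i = b' i := e
    have h1 : cr a (b - b') = 0 := by
      rw [cr_sub, (Finset.mem_filter.1 hb).2, (Finset.mem_filter.1 hb').2, sub_self]
    funext j
    have h2 := cr_eq_zero_comp h1 i j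
    simp only [Pi.sub_apply, e', sub_self, mul_zero, mul_eq_zero] at h2
    rcases h2 with h2 | h2
    · exact absurd h2 hi
    · linarith

lemma card_short (B : Finset (Fin 3 → V3)) (Y h : ℕ) (r : ℤ)
    (hB : ∀ A ∈ B, (∀ i, nrm (A i) ≤ Y) ∧ det3 A = r ∧ cr (A 0) (A 1) ≠ 0 ∧
      nrm (cr (A 0) (A 1)) ≤ h) : B.card ≤ (2 * Y + 1) ^ 5 * (2 * h + 1) ^ 3 := by
  classical
  rw [← card_box h]
  have hmaps : ∀ A ∈ B, cr (A 0) (A 1) ∈ box h := by
    intro A hA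
    rw [mem_box]
    exact (hB A hA).2.2.2
  refine Finset.card_le_mul_card_image_of_maps_to
    (f := fun A : Fin 3 → V3 => cr (A 0) (A 1)) hmaps _ ?_
  intro ν _
  rcases (B.filter fun A => cr (A 0) (A 1) = ν).eq_empty_or_nonempty with h0 | ⟨A0, hA0⟩
  · rw [h0]; simp
  have hν : ν ≠ 0 := by
    rw [← (Finset.mem_filter.1 hA0).2]; exact (hB A0 (Finset.mem_filter.1 hA0).1).2.2.1
  have h1 : (B.filter fun A => cr (A 0) (A 1) = ν).card ≤
      ((2 * Y + 1) * (2 * Y + 1) ^ 2) * ((box Y).filter fun b => dt ν b = 0).card := by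
    apply Finset.card_le_mul_card_image_of_maps_to (f := fun A => A 0)
    · intro A hA
      obtain ⟨hA1, hA2⟩ := Finset.mem_filter.1 hA
      exact Finset.mem_filter.2 ⟨mem_box.2 ((hB A hA1).1 0), by rw [← hA2]; exact dt_cr_left _ _⟩
    · intro a _
      by_cases ha : a = 0
      · rw [Finset.card_eq_zero.2]
        · exact Nat.zero_le _
        · rw [Finset.filter_eq_empty_iff]
          intro A hA hA0
          apply hν
          rw [← (Finset.mem_filter.1 hA).2, hA0, ha]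
          apply v3_ext <;> simp
      · refine le_trans ?_ (Nat.mul_le_mul (card_line a ha ν Y) (card_plane ν hν r Y))
        rw [← Finset.card_product]
        apply Finset.card_le_card_of_injOn (fun A => (A 1, A 2))
        · intro A hA
          obtain ⟨hA1, hA2⟩ := Finset.mem_filter.1 (Finset.mem_coe.1 hA)
          obtain ⟨hA3, hA4⟩ := Finset.mem_filter.1 hA1
          simp only [Finset.coe_product, Set.mem_prod, Finset.mem_coe, Finset.mem_filter]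
          refine ⟨⟨mem_box.2 ((hB A hA3).1 1), by rw [← hA2]; exact hA4⟩,
            mem_box.2 ((hB A hA3).1 2), ?_⟩
          rw [← hA4]; exact (hB A hA3).2.1
        · intro A hA A' hA' e
          simp only [Prod.mk.injEq] at e
          exact rows_ext ((Finset.mem_filter.1 (Finset.mem_coe.1 hA)).2.trans
            (Finset.mem_filter.1 (Finset.mem_coe.1 hA')).2.symm) e.1 e.2
  calc _ ≤ _ := h1
    _ ≤ ((2 * Y + 1) * (2 * Y + 1) ^ 2) * (2 * Y + 1) ^ 2 :=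
        Nat.mul_le_mul_left _ (card_plane ν hν 0 Y)
    _ = (2 * Y + 1) ^ 5 := by ring

section Lat

variable (Λ : AddSubgroup V3) (h : ℕ)

lemma count_by_normal (hh : 0 < h) (I : ℕ) (hI : 0 < I)
    (H2 : ∀ a ∈ Λ, ∀ b ∈ Λ, ∀ c ∈ Λ, (I : ℤ) ∣ dt (cr a b) c)
    (K0 : Finset V3) (hK0 : K0.card ≤ I)
    (H3 : ∀ κ : V3, (∀ r ∈ Λ, (h : ℤ) ∣ dt κ r) → (fun i => κ i % (h : ℤ)) ∈ K0)
    (B : Finset (Fin 3 → V3)) (Y R : ℕ) (r : ℤ) (ρ : ℝ) (hρ : 0 < ρ)
    (hB : ∀ A ∈ B, (∀ i j, 0 ≤ A i j ∧ A i j ≤ Y) ∧ (∀ i, A i ∈ Λ) ∧ det3 A = r)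
    (hκ : ∀ A ∈ B, ∃ κ, Good Λ h κ ∧ ρ ≤ ((nrm κ : ℤ) : ℝ) ∧ nrm κ ≤ R ∧ dt κ (A 0) = 0 ∧
      dt κ (A 1) = 0 ∧ (∃ r1 ∈ Gam Λ κ Y, ∃ r2 ∈ Gam Λ κ Y, cr r1 r2 ≠ 0) ∧
      (dt κ (A 2) = 0 ∨ cr (A 0) (A 1) ≠ 0)) :
    (B.card : ℝ) ≤ 18 ^ 3 * (Y : ℝ) ^ 6 / (I : ℝ) ^ 2 *
      (27 * ((h : ℝ) / ρ) ^ 3 + 208 * (1 + Real.log R)) := by
  classical
  let Ks : Finset V3 := (box R).filter fun κ => Good Λ h κ ∧ ρ ≤ ((nrm κ : ℤ) : ℝ) ∧
    ∃ r1 ∈ Gam Λ κ Y, ∃ r2 ∈ Gam Λ κ Y, cr r1 r2 ≠ 0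
  let P : V3 → (Fin 3 → V3) → Prop := fun κ A => dt κ (A 0) = 0 ∧ dt κ (A 1) = 0 ∧
    (dt κ (A 2) = 0 ∨ cr (A 0) (A 1) ≠ 0)
  have hsub : B ⊆ Ks.biUnion fun κ => B.filter (P κ) := by
    intro A hA
    obtain ⟨κ, h1, h2, h3, h4, h5, h6, h7⟩ := hκ A hA
    exact Finset.mem_biUnion.2 ⟨κ, Finset.mem_filter.2 ⟨mem_box.2 h3, h1, h2, h6⟩,
      Finset.mem_filter.2 ⟨hA, h4, h5, h7⟩⟩
  have hIR : (0 : ℝ) < I := by exact_mod_cast hI
  have hhR : (0 : ℝ) < h := by exact_mod_cast hh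
  have hfib : ∀ κ ∈ Ks, ((B.filter (P κ)).card : ℝ) ≤
      (18 * h * (Y : ℝ) ^ 2 / I) ^ 3 * (1 / ((nrm κ : ℤ) : ℝ) ^ 3) := by
    intro κ hκ
    obtain ⟨_, hg, hlo, r1, hr1, r2, hr2, hne⟩ := Finset.mem_filter.1 hκ
    have hN := card_Gam Λ h hh I hI H2 κ hg Y r1 r2 hr1 hr2 hne
    have hκp : (0 : ℝ) < ((nrm κ : ℤ) : ℝ) := lt_of_lt_of_le hρ hlo
    have hN' : ((Gam Λ κ Y).card : ℝ) ≤ 18 * h * (Y : ℝ) ^ 2 / I / ((nrm κ : ℤ) : ℝ) := by
      rw [div_div, le_div_iff₀ (by positivity)]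
      exact_mod_cast hN
    have h1 : (B.filter (P κ)).card ≤ (Gam Λ κ Y).card * (Gam Λ κ Y ×ˢ Gam Λ κ Y).card := by
      apply Finset.card_le_mul_card_image_of_maps_to (f := fun A => (A 0, A 1))
      · intro A hA
        obtain ⟨hA1, hA2⟩ := Finset.mem_filter.1 hA
        obtain ⟨b1, b2, _⟩ := hB A hA1
        exact Finset.mem_product.2 ⟨(mem_Gam Λ).2 ⟨nrm_le_of_pos (b1 0), b2 0, hA2.1⟩,
          (mem_Gam Λ).2 ⟨nrm_le_of_pos (b1 1), b2 1, hA2.2.1⟩⟩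
      · intro x _
        rcases ((B.filter (P κ)).filter fun A => (A 0, A 1) = x).eq_empty_or_nonempty with
          h0 | ⟨A0, hA0⟩
        · rw [h0]; simp
        obtain ⟨hA01, hA02⟩ := Finset.mem_filter.1 hA0
        obtain ⟨hA03, hA04⟩ := Finset.mem_filter.1 hA01
        apply Finset.card_le_card_of_injOn (fun A => A 2 - A0 2)
        · intro A hA
          obtain ⟨hA1, hA2⟩ := Finset.mem_filter.1 (Finset.mem_coe.1 hA)
          obtain ⟨hA3, hA4⟩ := Finset.mem_filter.1 hA1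
          have e := hA2.trans hA02.symm
          simp only [Prod.mk.injEq] at e
          obtain ⟨b1, b2, b3⟩ := hB A hA3
          obtain ⟨c1, c2, c3⟩ := hB A0 hA03
          refine Finset.mem_coe.2 ((mem_Gam Λ).2 ⟨nrm_sub_le_of_pos (b1 2) (c1 2),
            Λ.sub_mem (b2 2) (c2 2), ?_⟩)
          by_cases hcr : cr (A 0) (A 1) = 0
          · have d1 : dt κ (A 2) = 0 := hA4.2.2.resolve_right (fun hh => hh hcr)
            have d2 : dt κ (A0 2) = 0 := hA04.2.2.resolve_right (fun hh => hh (by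
              rw [← e.1, ← e.2]; exact hcr))
            rw [dt_sub, d1, d2, sub_self]
          · obtain ⟨r3, _, hr3h⟩ := hg.2
            have hpar := cr_parallel κ (A 0) (A 1) r3 hA4.1 hA4.2.1
            rw [hr3h] at hpar
            have hm0 : dt (cr (A 0) (A 1)) r3 ≠ 0 := by
              intro h0
              rw [h0, zero_smul, smul_eq_zero] at hpar
              rcases hpar with h1 | h1
              · omega
              · exact hcr h1
            have h2 := congrArg (fun v => dt v (A 2 - A0 2)) hpar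
            simp only [dt_smul] at h2
            have h3 : dt (cr (A 0) (A 1)) (A 2 - A0 2) = 0 := by
              rw [dt_sub]
              unfold det3 at b3 c3
              rw [← e.1, ← e.2] at c3
              rw [b3, c3, sub_self]
            rw [h3, mul_zero] at h2
            exact (mul_eq_zero.1 h2.symm).resolve_left hm0
        · intro A hA A' hA' e
          have e1 := (Finset.mem_filter.1 (Finset.mem_coe.1 hA)).2.trans
            (Finset.mem_filter.1 (Finset.mem_coe.1 hA')).2.symm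
          simp only [Prod.mk.injEq] at e1
          exact rows_ext e1.1 e1.2 (sub_left_injective e)
    rw [Finset.card_product] at h1
    have h2 : ((B.filter (P κ)).card : ℝ) ≤ ((Gam Λ κ Y).card : ℝ) ^ 3 := by
      have : (Gam Λ κ Y).card * ((Gam Λ κ Y).card * (Gam Λ κ Y).card) = (Gam Λ κ Y).card ^ 3 := by
        ring
      rw [this] at h1
      exact_mod_cast h1
    refine h2.trans ((pow_le_pow_left₀ (by positivity) hN' 3).trans (le_of_eq ?_))
    rw [div_pow, mul_one_div]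
  have hsum := sum_dual h hh K0 Ks R ρ hρ
    (fun κ hκ => H3 κ (Finset.mem_filter.1 hκ).2.1.1)
    (fun κ hκ => (Finset.mem_filter.1 hκ).2.2.1)
    (fun κ hκ => mem_box.1 (Finset.mem_filter.1 hκ).1)
  have hlog : 0 ≤ 1 + Real.log R := by
    have := Real.log_natCast_nonneg R
    linarith
  have hK0' : (K0.card : ℝ) ≤ I := by exact_mod_cast hK0
  calc (B.card : ℝ) ≤ ((Ks.biUnion fun κ => B.filter (P κ)).card : ℝ) := by
        exact_mod_cast Finset.card_le_card hsub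
    _ ≤ ∑ κ ∈ Ks, ((B.filter (P κ)).card : ℝ) := by exact_mod_cast Finset.card_biUnion_le
    _ ≤ ∑ κ ∈ Ks, (18 * h * (Y : ℝ) ^ 2 / I) ^ 3 * (1 / ((nrm κ : ℤ) : ℝ) ^ 3) :=
        Finset.sum_le_sum hfib
    _ = (18 * h * (Y : ℝ) ^ 2 / I) ^ 3 * ∑ κ ∈ Ks, (1 / ((nrm κ : ℤ) : ℝ) ^ 3) := by
        rw [Finset.mul_sum]
    _ ≤ (18 * h * (Y : ℝ) ^ 2 / I) ^ 3 *
        (I * (27 / ρ ^ 3 + 208 * (1 + Real.log R) / (h : ℝ) ^ 3)) := by
        refine mul_le_mul_of_nonneg_left (hsum.trans ?_) (by positivity)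
        gcongr
    _ = _ := by field_simp

lemma good_bound {κ ν : V3} {m : ℤ} (hm : 0 < m) (heq : (h : ℤ) • ν = m • κ) :
    nrm κ ≤ h * nrm ν := by
  have h1 := congrArg nrm heq
  rw [nrm_smul, nrm_smul, Nat.abs_cast, abs_of_pos hm] at h1
  have := nrm_nonneg κ
  nlinarith

lemma good_perp {κ ν a : V3} {m : ℤ} (hm : 0 < m) (heq : (h : ℤ) • ν = m • κ)
    (ha : dt ν a = 0) : dt κ a = 0 := by
  have h1 := congrArg (fun v => dt v a) heq
  simp only [dt_smul] at h1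
  rw [ha, mul_zero] at h1
  exact (mul_eq_zero.1 h1.symm).resolve_left hm.ne'

lemma nrm_cr_bound {Y : ℕ} {a b : V3} (ha : nrm a ≤ Y) (hb : nrm b ≤ Y) :
    (h : ℤ) * nrm (cr a b) ≤ (2 * h * Y ^ 2 : ℕ) := by
  have h1 := nrm_cr_le a b
  have h2 : nrm a * nrm b ≤ Y * Y := mul_le_mul ha hb (nrm_nonneg _) (by positivity)
  push_cast
  have : (0 : ℤ) ≤ h := by positivity
  nlinarith

theorem count_nonzero (hh : 0 < h) (I : ℕ) (hI : 0 < I) (H1 : ∀ v : V3, (h : ℤ) • v ∈ Λ)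
    (H2 : ∀ a ∈ Λ, ∀ b ∈ Λ, ∀ c ∈ Λ, (I : ℤ) ∣ dt (cr a b) c)
    (K0 : Finset V3) (hK0 : K0.card ≤ I)
    (H3 : ∀ κ : V3, (∀ r ∈ Λ, (h : ℤ) ∣ dt κ r) → (fun i => κ i % (h : ℤ)) ∈ K0)
    (B : Finset (Fin 3 → V3)) (Y : ℕ) (r : ℤ) (hr : r ≠ 0) (hrh : |r| ≤ h)
    (hB : ∀ A ∈ B, (∀ i j, 0 ≤ A i j ∧ A i j ≤ Y) ∧ (∀ i, A i ∈ Λ) ∧ det3 A = r) :
    (B.card : ℝ) ≤ ((2 * Y + 1) ^ 5 * (2 * h + 1) ^ 3 : ℕ) + 18 ^ 3 * (Y : ℝ) ^ 6 / (I : ℝ) ^ 2 *
      (27 + 208 * (1 + Real.log (2 * h * Y ^ 2 : ℕ))) := by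
  classical
  have hcr : ∀ A ∈ B, cr (A 0) (A 1) ≠ 0 := by
    intro A hA h0
    apply hr
    rw [← (hB A hA).2.2, det3, h0]
    simp [dt]
  have hhR : (0 : ℝ) < h := by exact_mod_cast hh
  rw [← Finset.card_filter_add_card_filter_not (s := B) (fun A => nrm (cr (A 0) (A 1)) ≤ h)]
  push_cast [Nat.cast_add]
  apply add_le_add
  · have := card_short (B.filter fun A => nrm (cr (A 0) (A 1)) ≤ h) Y h r (fun A hA => by
      obtain ⟨h1, h2⟩ := Finset.mem_filter.1 hA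
      exact ⟨fun i => nrm_le_of_pos ((hB A h1).1 i), (hB A h1).2.2, hcr A h1, h2⟩)
    exact_mod_cast this
  · have := count_by_normal Λ h hh I hI H2 K0 hK0 H3
      (B.filter fun A => ¬ nrm (cr (A 0) (A 1)) ≤ h) Y (2 * h * Y ^ 2) r h hhR
      (fun A hA => hB A (Finset.mem_filter.1 hA).1) (fun A hA => by
        obtain ⟨h1, h2⟩ := Finset.mem_filter.1 hA
        obtain ⟨b1, b2, b3⟩ := hB A h1
        obtain ⟨κ, m, hg, hm, heq⟩ := exists_good Λ h hh H1 _ (hcr A h1)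
        have p0 := good_perp h hm heq (dt_cr_left (A 0) (A 1))
        have p1 := good_perp h hm heq (dt_cr_right (A 0) (A 1))
        refine ⟨κ, hg, ?_, (good_bound h hm heq).trans (nrm_cr_bound h (nrm_le_of_pos (b1 0))
          (nrm_le_of_pos (b1 1))), p0, p1, ⟨A 0, (mem_Gam Λ).2 ⟨nrm_le_of_pos (b1 0), b2 0, p0⟩,
            A 1, (mem_Gam Λ).2 ⟨nrm_le_of_pos (b1 1), b2 1, p1⟩, hcr A h1⟩, Or.inr (hcr A h1)⟩
        obtain ⟨n, hn⟩ := hg.1 (A 2) (b2 2)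
        have h3 := congrArg (fun v => dt v (A 2)) heq
        simp only [dt_smul] at h3
        unfold det3 at b3
        rw [b3, hn] at h3
        have hhZ : (0 : ℤ) < h := by exact_mod_cast hh
        have h4 : r = m * n := mul_left_cancel₀ hhZ.ne' (by rw [h3]; ring)
        have h5 : m ≤ h := by
          have hn0 : n ≠ 0 := by rintro rfl; simp at h4; exact hr h4
          have := Int.one_le_abs hn0
          rw [h4, abs_mul, abs_of_pos hm] at hrh
          nlinarith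
        have h6 := congrArg nrm heq
        rw [nrm_smul, nrm_smul, Nat.abs_cast, abs_of_pos hm] at h6
        have h7 : (h : ℤ) ≤ nrm κ := by
          have := nrm_nonneg κ
          push Not at h2
          nlinarith
        exact_mod_cast h7)
    rw [div_self hhR.ne'] at this
    push_cast at this
    simpa using this

lemma exists_pair (A : Fin 3 → V3)
    (hAI : ∀ κ : V3, κ 0 + κ 1 + κ 2 = 0 → (∀ i, dt κ (A i) = 0) → κ = 0) :
    ∃ i j, cr (A i) (A j) ≠ 0 := by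
  by_contra hc
  push Not at hc
  by_cases h1 : ∀ i, A i 0 = A i 1
  · have := hAI ![1, -1, 0] (by simp) (fun i => by simp [dt, h1 i])
    have h2 := congrFun this 0
    simp at h2
  · push Not at h1
    obtain ⟨i, hi⟩ := h1
    have := hAI (cr (A i) ![1, 1, 1]) (by simp) (fun j => by
      have h3 := v3_eq_zero.1 (hc i j)
      simp only [cr_zero, cr_one, cr_two] at h3
      simp [dt]
      linarith [h3.1, h3.2.1, h3.2.2])
    have h2 := congrFun this 2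
    simp at h2
    exact hi (by linarith)

theorem count_zero (hh : 0 < h) (I : ℕ) (hI : 0 < I) (H1 : ∀ v : V3, (h : ℤ) • v ∈ Λ)
    (H2 : ∀ a ∈ Λ, ∀ b ∈ Λ, ∀ c ∈ Λ, (I : ℤ) ∣ dt (cr a b) c)
    (K0 : Finset V3) (hK0 : K0.card ≤ I)
    (H3 : ∀ κ : V3, (∀ r ∈ Λ, (h : ℤ) ∣ dt κ r) → (fun i => κ i % (h : ℤ)) ∈ K0)
    (ρ : ℕ) (hρ : 0 < ρ)
    (H4 : ∀ κ : V3, (∀ r ∈ Λ, (h : ℤ) ∣ dt κ r) → (ρ : ℤ) ∣ κ 0 + κ 1 + κ 2)
    (B : Finset (Fin 3 → V3)) (Y : ℕ)
    (hB : ∀ A ∈ B, (∀ i j, 0 ≤ A i j ∧ A i j ≤ Y) ∧ (∀ i, A i ∈ Λ) ∧ det3 A = 0)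
    (hAI : ∀ A ∈ B, ∀ κ : V3, κ 0 + κ 1 + κ 2 = 0 → (∀ i, dt κ (A i) = 0) → κ = 0) :
    (B.card : ℝ) ≤ 18 ^ 3 * (Y : ℝ) ^ 6 / (I : ℝ) ^ 2 *
      (729 * ((h : ℝ) / ρ) ^ 3 + 208 * (1 + Real.log (2 * h * Y ^ 2 : ℕ))) := by
  have hρR : (0 : ℝ) < ρ := by exact_mod_cast hρ
  have := count_by_normal Λ h hh I hI H2 K0 hK0 H3 B Y (2 * h * Y ^ 2) 0 ((ρ : ℝ) / 3)
    (by positivity) hB (fun A hA => by
      obtain ⟨b1, b2, b3⟩ := hB A hA
      obtain ⟨i, j, hij⟩ := exists_pair A (hAI A hA)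
      obtain ⟨κ, m, hg, hm, heq⟩ := exists_good Λ h hh H1 _ hij
      have hall : ∀ l, dt κ (A l) = 0 := by
        intro l
        apply good_perp h hm heq
        unfold det3 at b3
        simp only [dt, cr_zero, cr_one, cr_two] at b3 ⊢
        fin_cases i <;> fin_cases j <;> fin_cases l <;> simp <;> linarith
      refine ⟨κ, hg, ?_, (good_bound h hm heq).trans (nrm_cr_bound h (nrm_le_of_pos (b1 i))
          (nrm_le_of_pos (b1 j))), hall 0, hall 1,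
          ⟨A i, (mem_Gam Λ).2 ⟨nrm_le_of_pos (b1 i), b2 i, hall i⟩,
            A j, (mem_Gam Λ).2 ⟨nrm_le_of_pos (b1 j), b2 j, hall j⟩, hij⟩, Or.inl (hall 2)⟩
      have hs : κ 0 + κ 1 + κ 2 ≠ 0 := by
        intro h0
        have h1 := hAI A hA κ h0 hall
        obtain ⟨r3, _, hr3⟩ := hg.2
        rw [h1] at hr3
        simp [dt] at hr3
        omega
      have h1 := Int.le_of_dvd (abs_pos.2 hs) ((dvd_abs _ _).2 (H4 κ hg.1))
      have h2 : |κ 0 + κ 1 + κ 2| ≤ 3 * nrm κ := by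
        have a0 := le_nrm κ 0
        have a1 := le_nrm κ 1
        have a2 := le_nrm κ 2
        have a3 := abs_add_three (κ 0) (κ 1) (κ 2)
        linarith
      have h3 : (ρ : ℤ) ≤ 3 * nrm κ := h1.trans h2
      have h4 : (ρ : ℝ) ≤ 3 * ((nrm κ : ℤ) : ℝ) := by exact_mod_cast h3
      linarith)
  refine this.trans (le_of_eq ?_)
  congr 2
  field_simp
  norm_num

end Lat

end Crest.Agent.R32
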