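import Mathlib
import Crest.Agent.R32.Count

/-!
Row 32: matrices over `ZMod h`: annihilators, orbit bounds, group sizes, caps.
-/

set_option autoImplicit false
set_option linter.unusedSectionVars false

namespace Crest.Agent.R32

open Finset Matrix

lemma char_sum {A M ι : Type} [AddCommMonoid A] [CommMonoid M] (ψ : AddChar A M) (s : Finset ι)
    (f : ι → A) : ψ (∑ i ∈ s, f i) = ∏ i ∈ s, ψ (f i) := by
  classical
  induction s using Finset.induction_on with
  | empty => simp
  | insert a s ha ih => rw [Finset.sum_insert ha, Finset.prod_insert ha, AddChar.map_add_eq_mul, ih]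

lemma det33 {R : Type} [CommRing R] (a b c d e f g h i : R) :
    Matrix.det !![a, b, c; d, e, f; g, h, i] =
      a * e * i - a * f * h - b * d * i + b * f * g + c * d * h - c * e * g := by
  simp [Matrix.det_fin_three]

lemma inj33 {R : Type} {a b c d e f g h i a' b' c' d' e' f' g' h' i' : R}
    (H : !![a, b, c; d, e, f; g, h, i] = !![a', b', c'; d', e', f'; g', h', i']) :
    a = a' ∧ b = b' ∧ c = c' ∧ d = d' ∧ e = e' ∧ f = f' ∧ g = g' ∧ h = h' :=
  ⟨congrFun (congrFun H 0) 0, congrFun (congrFun H 0) 1, congrFun (congrFun H 0) 2,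
    congrFun (congrFun H 1) 0, congrFun (congrFun H 1) 1, congrFun (congrFun H 1) 2,
    congrFun (congrFun H 2) 0, congrFun (congrFun H 2) 1⟩

section Ker

variable {h : ℕ} [NeZero h] {m n : Type} [Fintype m] [Fintype n] [DecidableEq m] [DecidableEq n]

/-- left annihilator -/
def Ann (M : Matrix m n (ZMod h)) : Finset (m → ZMod h) := univ.filter fun ν => ν ᵥ* M = 0
/-- right kernel -/
def Kr (M : Matrix m n (ZMod h)) : Finset (n → ZMod h) := univ.filter fun κ => M *ᵥ κ = 0

lemma sum_char (x : n → ZMod h) :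
    ∑ y : n → ZMod h, (ZMod.stdAddChar (x ⬝ᵥ y) : ℂ) =
      if x = 0 then (h : ℂ) ^ Fintype.card n else 0 := by
  have e1 : ∀ y : n → ZMod h, (ZMod.stdAddChar (x ⬝ᵥ y) : ℂ) =
      ∏ i, ZMod.stdAddChar (y i * x i) := by
    intro y
    rw [dotProduct, char_sum]
    exact Finset.prod_congr rfl fun i _ => by rw [mul_comm]
  simp only [e1]
  have e2 := Finset.prod_univ_sum (fun _ : n => (univ : Finset (ZMod h)))
    (fun i a => (ZMod.stdAddChar (a * x i) : ℂ))
  rw [Fintype.piFinset_univ] at e2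
  rw [← e2]
  simp only [AddChar.sum_mulShift _ (ZMod.isPrimitive_stdAddChar h), ZMod.card]
  split_ifs with hx
  · simp [hx]
  · obtain ⟨i, hi⟩ : ∃ i, x i ≠ 0 := by
      by_contra hc
      push Not at hc
      exact hx (funext hc)
    exact Finset.prod_eq_zero (Finset.mem_univ i) (by simp [hi])

lemma duality (M : Matrix m n (ZMod h)) :
    (Ann M).card * h ^ Fintype.card n = (Kr M).card * h ^ Fintype.card m := by
  have e1 : ∑ ν : m → ZMod h, ∑ κ : n → ZMod h, (ZMod.stdAddChar ((ν ᵥ* M) ⬝ᵥ κ) : ℂ) =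
      (Ann M).card * (h : ℂ) ^ Fintype.card n := by
    simp only [sum_char]
    rw [← Finset.sum_filter, Finset.sum_const, nsmul_eq_mul]
    rfl
  have e2 : ∑ κ : n → ZMod h, ∑ ν : m → ZMod h, (ZMod.stdAddChar ((M *ᵥ κ) ⬝ᵥ ν) : ℂ) =
      (Kr M).card * (h : ℂ) ^ Fintype.card m := by
    simp only [sum_char]
    rw [← Finset.sum_filter, Finset.sum_const, nsmul_eq_mul]
    rfl
  have e3 : (Ann M).card * (h : ℂ) ^ Fintype.card n = (Kr M).card * (h : ℂ) ^ Fintype.card m := by
    rw [← e1, ← e2, Finset.sum_comm]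
    refine Finset.sum_congr rfl fun κ _ => Finset.sum_congr rfl fun ν _ => ?_
    rw [← Matrix.dotProduct_mulVec, dotProduct_comm]
  exact_mod_cast e3

lemma Ann_pos (M : Matrix m n (ZMod h)) : 0 < (Ann M).card :=
  Finset.card_pos.2 ⟨0, by simp [Ann]⟩

lemma card_sol (M : Matrix m n (ZMod h)) (B : Matrix (Fin 3) n (ZMod h)) :
    (univ.filter fun N : Matrix (Fin 3) m (ZMod h) => N * M = B).card ≤ (Ann M).card ^ 3 := by
  rcases (univ.filter fun N : Matrix (Fin 3) m (ZMod h) => N * M = B).eq_empty_or_nonempty with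
    h0 | ⟨N0, hN0⟩
  · rw [h0]; simp
  have hc : (Fintype.piFinset fun _ : Fin 3 => Ann M).card = (Ann M).card ^ 3 := by
    rw [Fintype.card_piFinset]; simp
  rw [← hc]
  apply Finset.card_le_card_of_injOn (fun N i => N i - N0 i)
  · intro N hN
    have h1 : N * M = B := by simpa using hN
    have h2 : N0 * M = B := by simpa using hN0
    rw [Finset.mem_coe, Fintype.mem_piFinset]
    intro i
    simp only [Ann, Finset.mem_filter, Finset.mem_univ, true_and]
    rw [Matrix.sub_vecMul]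
    have h3 := congrFun (h1.trans h2.symm) i
    rw [sub_eq_zero]
    exact h3
  · intro N _ N' _ e
    funext i
    exact sub_left_injective (congrFun e i)

end Ker

section Lam

variable {h : ℕ} [NeZero h]

/-- reduction mod `h` -/
def red (h : ℕ) : V3 →+ (Fin 3 → ZMod h) where
  toFun v i := (v i : ZMod h)
  map_zero' := by funext i; simp
  map_add' a b := by funext i; simp

/-- row map -/
def rowMap (M : Matrix (Fin 3) (Fin 3) (ZMod h)) : (Fin 3 → ZMod h) →+ (Fin 3 → ZMod h) where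
  toFun ν := ν ᵥ* M
  map_zero' := by simp
  map_add' a b := Matrix.add_vecMul M a b

/-- the row lattice -/
def Lam (M : Matrix (Fin 3) (Fin 3) (ZMod h)) : AddSubgroup V3 := (rowMap M).range.comap (red h)

lemma mem_Lam {M : Matrix (Fin 3) (Fin 3) (ZMod h)} {v : V3} :
    v ∈ Lam M ↔ ∃ ν : Fin 3 → ZMod h, ν ᵥ* M = fun i => (v i : ZMod h) := Iff.rfl

lemma red_surj : Function.Surjective (red h) := fun x =>
  ⟨fun i => ((x i).val : ℤ), by funext i; simp [red]⟩

lemma Lam_H1 (M : Matrix (Fin 3) (Fin 3) (ZMod h)) (v : V3) : (h : ℤ) • v ∈ Lam M :=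
  mem_Lam.2 ⟨0, by funext i; simp⟩

lemma index_Lam (M : Matrix (Fin 3) (Fin 3) (ZMod h)) : (Lam M).index = (Ann M).card := by
  rw [Lam, AddSubgroup.index_comap_of_surjective _ red_surj, AddSubgroup.index_range]
  rw [Nat.card_eq_fintype_card, Fintype.card_subtype]
  congr 1
  ext x
  simp only [Ann, Finset.mem_filter, Finset.mem_univ, true_and, AddMonoidHom.mem_ker]
  rfl

lemma det3_eq (A : Matrix (Fin 3) (Fin 3) ℤ) : det3 A = A.det := by
  rw [Matrix.det_fin_three]
  simp [det3, dt]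
  ring

lemma Lam_H2 (M : Matrix (Fin 3) (Fin 3) (ZMod h)) :
    ∀ a ∈ Lam M, ∀ b ∈ Lam M, ∀ c ∈ Lam M, ((Ann M).card : ℤ) ∣ dt (cr a b) c := by
  intro a ha b hb c hc
  let A : Matrix (Fin 3) (Fin 3) ℤ := Matrix.of ![a, b, c]
  have e : dt (cr a b) c = A.det := by rw [← det3_eq]; rfl
  rw [e]
  by_cases h0 : A.det = 0
  · rw [h0]; exact dvd_zero _
  have hli : LinearIndependent ℤ A.row := Matrix.linearIndependent_rows_of_det_ne_zero h0
  have h1 := Submodule.natAbs_det_basis_change (Pi.basisFun ℤ (Fin 3))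
    (Submodule.span ℤ (Set.range A.row)) (Module.Basis.span hli)
  have h2 : ((↑) ∘ (Module.Basis.span hli) : Fin 3 → V3) = A.row := by
    funext i; simp
  rw [h2, Pi.basisFun_det] at h1
  have h3 : (Submodule.span ℤ (Set.range A.row)).toAddSubgroup ≤ Lam M := by
    intro x hx
    have : Submodule.span ℤ (Set.range A.row) ≤ (Lam M).toIntSubmodule := by
      rw [Submodule.span_le]
      rintro _ ⟨i, rfl⟩
      fin_cases i
      · exact ha
      · exact hb
      · exact hc
    exact this hx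
  have h4 := AddSubgroup.index_dvd_of_le h3
  rw [index_Lam] at h4
  have h5 : (Submodule.span ℤ (Set.range A.row)).toAddSubgroup.index = A.det.natAbs := h1.symm
  rw [h5] at h4
  exact Int.natCast_dvd.2 h4

/-- integer representatives of the right kernel -/
def K0 (M : Matrix (Fin 3) (Fin 3) (ZMod h)) : Finset V3 :=
  (Kr M).image fun x i => ((x i).val : ℤ)

lemma card_K0 (M : Matrix (Fin 3) (Fin 3) (ZMod h)) : (K0 M).card ≤ (Ann M).card := by
  have h1 := duality M
  have hp : 0 < h ^ Fintype.card (Fin 3) := pow_pos (Nat.pos_of_ne_zero (NeZero.ne h)) _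
  rw [Nat.eq_of_mul_eq_mul_right hp h1]
  exact Finset.card_image_le

lemma row_mem_Lam (M : Matrix (Fin 3) (Fin 3) (ZMod h)) (v : V3) (i : Fin 3)
    (hv : ∀ j, (v j : ZMod h) = M i j) : v ∈ Lam M :=
  mem_Lam.2 ⟨Pi.single i 1, by rw [Matrix.single_one_vecMul]; funext j; simp [hv j]⟩

lemma Lam_H3 (M : Matrix (Fin 3) (Fin 3) (ZMod h)) (κ : V3)
    (hκ : ∀ r ∈ Lam M, (h : ℤ) ∣ dt κ r) : (fun i => κ i % (h : ℤ)) ∈ K0 M := by
  refine Finset.mem_image.2 ⟨fun i => (κ i : ZMod h), ?_, by funext i; exact ZMod.val_intCast _⟩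
  simp only [Kr, Finset.mem_filter, Finset.mem_univ, true_and]
  funext i
  have h1 := hκ _ (row_mem_Lam M (fun j => ((M i j).val : ℤ)) i (fun j => by simp))
  rw [← ZMod.intCast_zmod_eq_zero_iff_dvd] at h1
  simp only [dt] at h1
  push_cast at h1
  simp only [ZMod.natCast_val, ZMod.cast_id', id] at h1
  simp only [Matrix.mulVec, dotProduct, Fin.sum_univ_three, Pi.zero_apply]
  linear_combination h1

lemma half_le {α : Type} [AddCommGroup α] (S : Finset α) (hS : ∀ a ∈ S, -a ∈ S) (P : α → Prop)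
    [DecidablePred P] (hP : ∀ a, P a ∨ P (-a)) : S.card ≤ 2 * (S.filter P).card := by
  rw [← Finset.card_filter_add_card_filter_not (s := S) P, two_mul]
  apply Nat.add_le_add_left
  apply Finset.card_le_card_of_injOn (fun a => -a)
  · intro a ha
    obtain ⟨h1, h2⟩ := Finset.mem_filter.1 (Finset.mem_coe.1 ha)
    exact Finset.mem_coe.2 (Finset.mem_filter.2 ⟨hS a h1, (hP a).resolve_left h2⟩)
  · intro a _ b _ e
    exact neg_injective e

/-- the special linear group as a finset -/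
def SL3 (h : ℕ) [NeZero h] : Finset (Matrix (Fin 3) (Fin 3) (ZMod h)) :=
  univ.filter fun g => g.det = 1

lemma card_stab (Hu : ∀ a : ZMod h, IsUnit (1 + a) ∨ IsUnit (1 + -a))
    (M B : Matrix (Fin 3) (Fin 3) (ZMod h)) :
    ((SL3 h).filter fun g => g * M = B).card ≤
      2 * (Ann M).card ^ 2 * ((Ann M).filter fun ν => ν 1 = 0).card := by
  classical
  set S := (SL3 h).filter fun g => g * M = B
  set J := ((Ann M).filter fun ν => ν 1 = 0).card
  let A' := (Ann M).filter fun ν => IsUnit (1 + ν 1)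
  have hA' : (Ann M).card ≤ 2 * A'.card := by
    have := half_le (Ann M) (fun a ha => by
      simp only [Ann, Finset.mem_filter, Finset.mem_univ, true_and] at ha ⊢
      rw [Matrix.neg_vecMul, ha, neg_zero]) (fun ν => IsUnit (1 + ν 1)) (fun a => Hu (a 1))
    exact this
  let D : (Fin 3 → ZMod h) → Matrix (Fin 3) (Fin 3) (ZMod h) := fun ν =>
    !![1, 0, 0; ν 0, 1 + ν 1, ν 2; 0, 0, 1]
  have hdet : ∀ ν, (D ν).det = 1 + ν 1 := by
    intro ν; simp [D, Matrix.det_fin_three]
  have hDM : ∀ ν ∈ Ann M, D ν * M = M := by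
    intro ν hν
    simp only [Ann, Finset.mem_filter, Finset.mem_univ, true_and] at hν
    ext i j
    have := congrFun hν j
    simp only [Matrix.vecMul, dotProduct, Fin.sum_univ_three, Pi.zero_apply] at this
    fin_cases i <;> simp [D, Matrix.mul_apply, Fin.sum_univ_three]
    linear_combination this
  have key : (S ×ˢ A').card ≤
      J * (univ.filter fun N : Matrix (Fin 3) (Fin 3) (ZMod h) => N * M = B).card := by
    apply Finset.card_le_mul_card_image_of_maps_to (f := fun x => x.1 * D x.2)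
    · intro x hx
      obtain ⟨h1, h2⟩ := Finset.mem_product.1 hx
      simp only [Finset.mem_filter, Finset.mem_univ, true_and]
      rw [Matrix.mul_assoc, hDM _ (Finset.mem_filter.1 h2).1]
      exact (Finset.mem_filter.1 h1).2
    · intro N _
      rcases ((S ×ˢ A').filter fun x => x.1 * D x.2 = N).eq_empty_or_nonempty with h0 | ⟨x0, hx0⟩
      · rw [h0]; simp
      have hd : ∀ x ∈ (S ×ˢ A').filter (fun x => x.1 * D x.2 = N), N.det = 1 + x.2 1 := by
        intro x hx
        obtain ⟨h1, h2⟩ := Finset.mem_filter.1 hx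
        have h3 := (Finset.mem_filter.1 (Finset.mem_filter.1 (Finset.mem_product.1 h1).1).1).2
        rw [← h2, Matrix.det_mul, h3, one_mul, hdet]
      have hA : ∀ x ∈ (S ×ˢ A').filter (fun x => x.1 * D x.2 = N), x.2 ᵥ* M = 0 := by
        intro x hx
        have := (Finset.mem_filter.1 (Finset.mem_product.1 (Finset.mem_filter.1 hx).1).2).1
        simpa [Ann] using this
      apply Finset.card_le_card_of_injOn (fun x => x.2 - x0.2)
      · intro x hx
        have hx' := Finset.mem_coe.1 hx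
        refine Finset.mem_coe.2 (Finset.mem_filter.2 ⟨?_, ?_⟩)
        · simp only [Ann, Finset.mem_filter, Finset.mem_univ, true_and]
          rw [Matrix.sub_vecMul, hA x hx', hA x0 hx0, sub_self]
        · have := (hd x hx').symm.trans (hd x0 hx0)
          simp only [Pi.sub_apply]
          linear_combination this
      · intro x hx y hy e
        have e2 : x.2 = y.2 := sub_left_injective e
        have hx' := Finset.mem_filter.1 (Finset.mem_coe.1 hx)
        have hy' := Finset.mem_filter.1 (Finset.mem_coe.1 hy)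
        have hu : IsUnit (D x.2) := by
          rw [Matrix.isUnit_iff_isUnit_det, hdet]
          exact (Finset.mem_filter.1 (Finset.mem_product.1 hx'.1).2).2
        refine Prod.ext (hu.mul_right_cancel ?_) e2
        rw [hx'.2, e2, hy'.2]
  rw [Finset.card_product] at key
  have h1 := card_sol M B
  have hI := Ann_pos M
  have h2 : S.card * (Ann M).card ≤ (2 * (Ann M).card ^ 2 * J) * (Ann M).card := by
    calc S.card * (Ann M).card ≤ S.card * (2 * A'.card) := Nat.mul_le_mul_left _ hA'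
      _ = 2 * (S.card * A'.card) := by ring
      _ ≤ 2 * (J * (Ann M).card ^ 3) := Nat.mul_le_mul_left _ (key.trans (Nat.mul_le_mul_left _ h1))
      _ = _ := by ring
  exact Nat.le_of_mul_le_mul_right h2 hI

lemma card_units_ge (Hu : ∀ a : ZMod h, IsUnit (1 + a) ∨ IsUnit (1 + -a)) :
    h ≤ 2 * Fintype.card (ZMod h)ˣ := by
  classical
  have h1 := half_le (univ : Finset (ZMod h)) (fun a _ => Finset.mem_univ _)
    (fun a => IsUnit (1 + a)) Hu
  rw [Finset.card_univ, ZMod.card] at h1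
  refine h1.trans (Nat.mul_le_mul_left _ ?_)
  rw [← Finset.card_univ]
  apply Finset.card_le_card_of_injOn (fun a => if ha : IsUnit (1 + a) then ha.unit else 1)
  · intro a _; simp
  · intro a ha b hb e
    have ha' := (Finset.mem_filter.1 (Finset.mem_coe.1 ha)).2
    have hb' := (Finset.mem_filter.1 (Finset.mem_coe.1 hb)).2
    simp only [dif_pos ha', dif_pos hb'] at e
    have := congrArg Units.val e
    simpa using this

lemma card_det_eq (d : ZMod h) : Fintype.card (ZMod h)ˣ ^ 2 * h ^ 6 ≤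
    (univ.filter fun g : Matrix (Fin 3) (Fin 3) (ZMod h) => g.det = d).card := by
  have hc : (univ : Finset ((ZMod h)ˣ × (ZMod h)ˣ × (Fin 6 → ZMod h))).card =
      Fintype.card (ZMod h)ˣ ^ 2 * h ^ 6 := by
    simp [Finset.card_univ, ZMod.card]; ring
  rw [← hc]
  let X : (ZMod h)ˣ × (ZMod h)ˣ × (Fin 6 → ZMod h) → ZMod h := fun w =>
    (w.2.1 + w.2.2 0 * w.2.2 2) * ((w.1⁻¹ : (ZMod h)ˣ) : ZMod h)
  let F : (ZMod h)ˣ × (ZMod h)ˣ × (Fin 6 → ZMod h) → Matrix (Fin 3) (Fin 3) (ZMod h) := fun w =>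
    !![w.1, w.2.2 0, w.2.2 1; w.2.2 2, X w, w.2.2 3; w.2.2 4, w.2.2 5,
      (d - (- w.1 * w.2.2 3 * w.2.2 5 + w.2.2 0 * w.2.2 3 * w.2.2 4 + w.2.2 1 * w.2.2 2 * w.2.2 5
        - w.2.2 1 * X w * w.2.2 4)) * ((w.2.1⁻¹ : (ZMod h)ˣ) : ZMod h)]
  have hX : ∀ w, (w.1 : ZMod h) * X w - w.2.2 0 * w.2.2 2 = w.2.1 := by
    intro w
    have := w.1.mul_inv
    simp only [X]
    linear_combination (w.2.1 + w.2.2 0 * w.2.2 2) * this
  apply Finset.card_le_card_of_injOn F
  · intro w _
    simp only [Finset.coe_filter, Finset.mem_univ, true_and, Set.mem_ofPred_eq]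
    have h1 := hX w
    have h2 := w.2.1.mul_inv
    simp only [F, det33]
    set T := (d - (- w.1 * w.2.2 3 * w.2.2 5 + w.2.2 0 * w.2.2 3 * w.2.2 4 +
      w.2.2 1 * w.2.2 2 * w.2.2 5 - w.2.2 1 * X w * w.2.2 4)) with hT
    linear_combination (T * ((w.2.1⁻¹ : (ZMod h)ˣ) : ZMod h)) * h1 + T * h2 + hT
  · intro w _ w' _ e
    obtain ⟨e00, e01, e02, e10, e11, e12, e20, e21⟩ := inj33 e
    refine Prod.ext (Units.ext e00) (Prod.ext (Units.ext ?_) ?_)
    · rw [← hX w, ← hX w', e00, e11, e01, e10]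
    · funext i
      fin_cases i <;> assumption

lemma card_SL3 (Hu : ∀ a : ZMod h, IsUnit (1 + a) ∨ IsUnit (1 + -a)) :
    h ^ 8 ≤ 4 * (SL3 h).card := by
  have h1 := card_det_eq (1 : ZMod h)
  have h2 := card_units_ge Hu
  calc h ^ 8 = h ^ 2 * h ^ 6 := by ring
    _ ≤ (2 * Fintype.card (ZMod h)ˣ) ^ 2 * h ^ 6 := by gcongr
    _ = 4 * (Fintype.card (ZMod h)ˣ ^ 2 * h ^ 6) := by ring
    _ ≤ _ := Nat.mul_le_mul_left _ h1

open Classical in
/-- the general linear group as a finset -/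
noncomputable def GL3 (h : ℕ) [NeZero h] : Finset (Matrix (Fin 3) (Fin 3) (ZMod h)) :=
  univ.filter fun g => IsUnit g.det

lemma card_GL3 (Hu : ∀ a : ZMod h, IsUnit (1 + a) ∨ IsUnit (1 + -a)) :
    h ^ 9 ≤ 8 * (GL3 h).card := by
  classical
  have h2 := card_units_ge Hu
  have h1 : Fintype.card (ZMod h)ˣ * (Fintype.card (ZMod h)ˣ ^ 2 * h ^ 6) ≤ (GL3 h).card := by
    have : (univ : Finset (ZMod h)ˣ).biUnion (fun d => univ.filter
        fun g : Matrix (Fin 3) (Fin 3) (ZMod h) => g.det = d) ⊆ GL3 h := by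
      intro g hg
      obtain ⟨d, _, hd⟩ := Finset.mem_biUnion.1 hg
      simp only [GL3, Finset.mem_filter, Finset.mem_univ, true_and] at hd ⊢
      rw [hd]; exact d.isUnit
    refine le_trans ?_ (Finset.card_le_card this)
    rw [Finset.card_biUnion]
    · calc _ = ∑ _d : (ZMod h)ˣ, Fintype.card (ZMod h)ˣ ^ 2 * h ^ 6 := by simp
        _ ≤ _ := Finset.sum_le_sum fun d _ => card_det_eq _
    · intro d _ d' _ hdd
      rw [Function.onFun, Finset.disjoint_filter]
      intro g _ e1 e2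
      exact hdd (Units.ext (e1.symm.trans e2))
  calc h ^ 9 = h ^ 3 * h ^ 6 := by ring
    _ ≤ (2 * Fintype.card (ZMod h)ˣ) ^ 3 * h ^ 6 := by gcongr
    _ = 8 * (Fintype.card (ZMod h)ˣ * (Fintype.card (ZMod h)ˣ ^ 2 * h ^ 6)) := by ring
    _ ≤ _ := Nat.mul_le_mul_left _ h1

/-- affine independence of three vectors -/
def AI {R : Type} [CommRing R] (a b c : Fin 3 → R) : Prop :=
  ∀ x y z : R, x + y + z = 0 → x • a + y • b + z • c = 0 → x = 0 ∧ y = 0 ∧ z = 0

/-- matrix of affine images -/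
def affM (w : Matrix (Fin 3) (Fin 3) (ZMod h) × (Fin 3 → ZMod h)) (c : Fin 3 → Fin 3 → ZMod h) :
    Matrix (Fin 3) (Fin 3) (ZMod h) := Matrix.of fun i j => (w.1 *ᵥ c j + w.2) i

lemma card_aff (c : Fin 3 → Fin 3 → ZMod h) (hc : AI (c 0) (c 1) (c 2))
    (B : Matrix (Fin 3) (Fin 3) (ZMod h)) :
    (univ.filter fun w : Matrix (Fin 3) (Fin 3) (ZMod h) × (Fin 3 → ZMod h) =>
      affM w c = B).card ≤ h ^ 3 := by
  let M : Matrix (Fin 4) (Fin 3) (ZMod h) := Matrix.of fun a j => ![c j 0, c j 1, c j 2, 1] a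
  have hK : (Kr M).card ≤ 1 := by
    rw [Finset.card_le_one_iff_subset_singleton]
    refine ⟨0, fun κ hκ => ?_⟩
    simp only [Kr, Finset.mem_filter, Finset.mem_univ, true_and] at hκ
    have e0 := congrFun hκ 0
    have e1 := congrFun hκ 1
    have e2 := congrFun hκ 2
    have e3 := congrFun hκ 3
    simp [M, Matrix.mulVec, dotProduct, Fin.sum_univ_three] at e0 e1 e2 e3
    obtain ⟨a, b, d⟩ := hc (κ 0) (κ 1) (κ 2) e3 (by
      funext i
      fin_cases i <;> simp
      · linear_combination e0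
      · linear_combination e1
      · linear_combination e2)
    rw [Finset.mem_singleton]
    funext i
    fin_cases i <;> assumption
  have hA : (Ann M).card ≤ h := by
    have h1 := duality M
    simp only [Fintype.card_fin] at h1
    have hp : 0 < h ^ 3 := pow_pos (Nat.pos_of_ne_zero (NeZero.ne h)) _
    apply Nat.le_of_mul_le_mul_right _ hp
    rw [h1]
    calc (Kr M).card * h ^ 4 ≤ 1 * h ^ 4 := Nat.mul_le_mul_right _ hK
      _ = h * h ^ 3 := by ring
  refine le_trans ?_ ((card_sol M B).trans (Nat.pow_le_pow_left hA 3))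
  apply Finset.card_le_card_of_injOn
    (fun w => Matrix.of fun i a => ![w.1 i 0, w.1 i 1, w.1 i 2, w.2 i] a)
  · intro w hw
    simp only [Finset.coe_filter, Finset.mem_univ, true_and, Set.mem_ofPred_eq] at hw ⊢
    ext i j
    rw [← hw]
    simp [affM, M, Matrix.mul_apply, Fin.sum_univ_four, Matrix.mulVec, dotProduct, Fin.sum_univ_three]
  · intro w _ w' _ e
    refine Prod.ext ?_ ?_
    · ext i j
      have e0 := congrFun (congrFun e i) 0
      have e1 := congrFun (congrFun e i) 1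
      have e2 := congrFun (congrFun e i) 2
      simp at e0 e1 e2
      fin_cases j <;> assumption
    · funext i
      have e3 := congrFun (congrFun e i) 3
      simpa using e3

lemma AI_map {a b c : Fin 3 → ZMod h} (H : AI a b c) (G : Matrix (Fin 3) (Fin 3) (ZMod h))
    (hG : G ∈ GL3 h) (t : Fin 3 → ZMod h) : AI (G *ᵥ a + t) (G *ᵥ b + t) (G *ᵥ c + t) := by
  intro x y z h1 h2
  apply H x y z h1
  have hu : IsUnit G.det := by simpa [GL3] using hG
  have h3 : G *ᵥ (x • a + y • b + z • c) = 0 := by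
    rw [Matrix.mulVec_add, Matrix.mulVec_add, Matrix.mulVec_smul, Matrix.mulVec_smul,
      Matrix.mulVec_smul, ← h2]
    have : x • t + y • t + z • t = 0 := by rw [← add_smul, ← add_smul, h1, zero_smul]
    simp only [smul_add]
    linear_combination (exp := 1) -this
  have h4 := congrArg (fun v => G⁻¹ *ᵥ v) h3
  simpa [Matrix.mulVec_mulVec, Matrix.nonsing_inv_mul G hu] using h4

lemma J_le (M : Matrix (Fin 3) (Fin 3) (ZMod h)) (hz : IsUnit (M 2 0)) :
    ((Ann M).filter fun ν => ν 1 = 0).card ≤ (univ.filter fun a : ZMod h =>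
      a * (M 0 0 * M 2 1 - M 0 1 * M 2 0) = 0 ∧ a * (M 0 0 * M 2 2 - M 0 2 * M 2 0) = 0).card := by
  have key : ∀ ν ∈ (Ann M).filter fun ν => ν 1 = 0, ∀ j, ν 0 * M 0 j + ν 2 * M 2 j = 0 := by
    intro ν hν j
    obtain ⟨h1, h2⟩ := Finset.mem_filter.1 hν
    simp only [Ann, Finset.mem_filter, Finset.mem_univ, true_and] at h1
    have := congrFun h1 j
    simp only [Matrix.vecMul, dotProduct, Fin.sum_univ_three, Pi.zero_apply, h2] at this
    linear_combination this
  apply Finset.card_le_card_of_injOn (fun ν => ν 0)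
  · intro ν hν
    have k := key ν (Finset.mem_coe.1 hν)
    simp only [Finset.coe_filter, Finset.mem_univ, true_and, Set.mem_ofPred_eq]
    constructor
    · linear_combination M 2 1 * k 0 - M 2 0 * k 1
    · linear_combination M 2 2 * k 0 - M 2 0 * k 2
  · intro ν hν ν' hν' e
    have e' : ν 0 = ν' 0 := e
    have k := key ν (Finset.mem_coe.1 hν) 0
    have k' := key ν' (Finset.mem_coe.1 hν') 0
    have e1 : ν 1 = ν' 1 := (Finset.mem_filter.1 (Finset.mem_coe.1 hν)).2.trans
      (Finset.mem_filter.1 (Finset.mem_coe.1 hν')).2.symm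
    have e2 : ν 2 = ν' 2 := hz.mul_right_cancel (by rw [e'] at k; linear_combination k - k')
    funext i
    fin_cases i <;> assumption

end Lam

lemma pow_dvd_left_of_not_dvd (l : ℤ) (hl : Prime l) (a : ℤ) :
    ∀ (j k : ℕ) (μ : ℤ), l ^ k ∣ a * μ → ¬ l ^ (j + 1) ∣ μ → l ^ (k - j) ∣ a := by
  intro j
  induction j with
  | zero =>
    intro k μ h1 h2
    exact hl.pow_dvd_of_dvd_mul_right k (by simpa using h2) h1
  | succ j ih =>
    intro k μ h1 h2
    by_cases h3 : l ∣ μ
    · obtain ⟨μ', rfl⟩ := h3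
      rcases k with _ | k
      · simp
      · rw [Nat.add_sub_add_right]
        apply ih k μ'
        · rw [pow_succ, ← mul_assoc, mul_comm a l, mul_assoc, mul_comm (l ^ k)] at h1
          exact (mul_dvd_mul_iff_left hl.ne_zero).1 h1
        · intro h4
          apply h2
          rw [pow_succ, mul_comm]
          exact mul_dvd_mul_left l h4
    · exact (pow_dvd_pow l (Nat.sub_le _ _)).trans (hl.pow_dvd_of_dvd_mul_right k h3 h1)

lemma card_ann_le (l k : ℕ) (hl : l.Prime) [NeZero (l ^ k)] (μ1 μ2 : ℤ) :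
    (univ.filter fun a : ZMod (l ^ k) => a * (μ1 : ZMod (l ^ k)) = 0 ∧ a * μ2 = 0).card ≤
      ∑ j ∈ range (k + 1), if (l : ℤ) ^ j ∣ μ1 ∧ (l : ℤ) ^ j ∣ μ2 then l ^ j else 0 := by
  classical
  set j := Nat.findGreatest (fun j => (l : ℤ) ^ j ∣ μ1 ∧ (l : ℤ) ^ j ∣ μ2) k with hj
  have hjk : j ≤ k := Nat.findGreatest_le k
  have hP : (l : ℤ) ^ j ∣ μ1 ∧ (l : ℤ) ^ j ∣ μ2 :=
    Nat.findGreatest_spec (P := fun j => (l : ℤ) ^ j ∣ μ1 ∧ (l : ℤ) ^ j ∣ μ2) (Nat.zero_le k)
      (by simp)
  refine le_trans ?_ (Finset.single_le_sum (f := fun j =>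
    if (l : ℤ) ^ j ∣ μ1 ∧ (l : ℤ) ^ j ∣ μ2 then l ^ j else 0) (fun _ _ => Nat.zero_le _)
    (Finset.mem_range.2 (Nat.lt_succ_of_le hjk)))
  simp only [if_pos hP]
  have hlZ : Prime (l : ℤ) := Nat.prime_iff_prime_int.1 hl
  have key : ∀ a : ZMod (l ^ k), a * (μ1 : ZMod (l ^ k)) = 0 ∧ a * μ2 = 0 → l ^ (k - j) ∣ a.val := by
    intro a ha
    by_cases hk : j = k
    · simp [hk]
    have hnot := Nat.findGreatest_is_greatest (P := fun j => (l : ℤ) ^ j ∣ μ1 ∧ (l : ℤ) ^ j ∣ μ2)
      (k := j + 1) (n := k) (by omega) (by omega)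
    have gen : ∀ μ : ℤ, a * (μ : ZMod (l ^ k)) = 0 → ¬ (l : ℤ) ^ (j + 1) ∣ μ →
        l ^ (k - j) ∣ a.val := by
      intro μ h1 h2
      have h3 : ((l ^ k : ℕ) : ℤ) ∣ (a.val : ℤ) * μ := by
        rw [← ZMod.intCast_zmod_eq_zero_iff_dvd]
        push_cast
        simpa using h1
      push_cast at h3
      have := pow_dvd_left_of_not_dvd l hlZ _ j k μ h3 h2
      exact_mod_cast this
    by_cases h1 : (l : ℤ) ^ (j + 1) ∣ μ1
    · exact gen μ2 ha.2 fun h2 => hnot ⟨h1, h2⟩
    · exact gen μ1 ha.1 h1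
  rw [← Finset.card_range (l ^ j)]
  have hp : 0 < l ^ (k - j) := pow_pos hl.pos _
  apply Finset.card_le_card_of_injOn (fun a => a.val / l ^ (k - j))
  · intro a _
    rw [Finset.mem_coe, Finset.mem_range, Nat.div_lt_iff_lt_mul hp, ← pow_add,
      Nat.add_sub_cancel' hjk]
    exact ZMod.val_lt a
  · intro a ha b hb e
    have ha' := key a (by simpa using ha)
    have hb' := key b (by simpa using hb)
    apply ZMod.val_injective
    rw [← Nat.mul_div_cancel' ha', ← Nat.mul_div_cancel' hb']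
    exact congrArg _ e

lemma Hu_pow (l k : ℕ) (hl : l.Prime) (h3 : 3 ≤ l) (a : ZMod (l ^ k)) :
    IsUnit (1 + a) ∨ IsUnit (1 + -a) := by
  have : NeZero (l ^ k) := ⟨pow_ne_zero _ hl.ne_zero⟩
  have gen : ∀ x : ℤ, ¬ (l : ℤ) ∣ x → IsUnit (x : ZMod (l ^ k)) := by
    intro x hx
    rw [ZMod.coe_int_isUnit_iff_isCoprime]
    push_cast
    exact IsCoprime.pow_left ((Nat.prime_iff_prime_int.1 hl).coprime_iff_not_dvd.2 hx)
  by_cases h1 : (l : ℤ) ∣ 1 + (a.val : ℤ)
  · right
    have h2 : ¬ (l : ℤ) ∣ 1 - (a.val : ℤ) := by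
      intro h2
      have h4 : (l : ℤ) ∣ 2 := by
        have := dvd_add h1 h2
        rwa [show (1 + (a.val : ℤ)) + (1 - (a.val : ℤ)) = 2 by ring] at this
      have := Int.le_of_dvd (by norm_num) h4
      omega
    have := gen _ h2
    simpa [sub_eq_add_neg] using this
  · left
    have := gen _ h1
    simpa using this

lemma exists_cap (q : ℕ) (hq : q.Prime) (h3 : 3 ≤ q) (N : ℕ) (hN : N ≤ q ^ 2) :
    ∃ c : Fin N → Fin 3 → ZMod q, ∀ a b d, a ≠ b → a ≠ d → b ≠ d → AI (c a) (c b) (c d) := by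
  have : Fact q.Prime := ⟨hq⟩
  obtain ⟨ε, hε⟩ := FiniteField.exists_nonsquare (F := ZMod q) (by
    rw [ZMod.ringChar_zmod_n]; omega)
  obtain ⟨e⟩ : Nonempty (Fin N ↪ ZMod q × ZMod q) :=
    Function.Embedding.nonempty_of_card_le (by simp [ZMod.card]; nlinarith)
  have aniso : ∀ s t : ZMod q, s ^ 2 - ε * t ^ 2 = 0 → s = 0 ∧ t = 0 := by
    intro s t hst
    by_cases ht : t = 0
    · rw [ht] at hst
      exact ⟨by simpa using hst, ht⟩
    · exfalso
      apply hε
      refine ⟨s / t, ?_⟩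
      field_simp
      linear_combination -hst
  refine ⟨fun a => ![(e a).1, (e a).2, (e a).1 ^ 2 - ε * (e a).2 ^ 2], ?_⟩
  intro a b d hab had hbd x y z h1 h2
  have e0 := congrFun h2 0
  have e1 := congrFun h2 1
  have e2 := congrFun h2 2
  simp at e0 e1 e2
  have ne : ∀ u v : Fin N, u ≠ v →
      ((e u).1 - (e v).1) ^ 2 - ε * ((e u).2 - (e v).2) ^ 2 ≠ 0 := by
    intro u v huv h0
    obtain ⟨h4, h5⟩ := aniso _ _ h0
    exact huv (e.injective (Prod.ext (sub_eq_zero.1 h4) (sub_eq_zero.1 h5)))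
  set s1 := (e a).1
  set t1 := (e a).2
  set s2 := (e b).1
  set t2 := (e b).2
  set s3 := (e d).1
  set t3 := (e d).2
  have hz : z = -x - y := by linear_combination h1
  subst hz
  -- differences
  have f0 : x * (s1 - s3) + y * (s2 - s3) = 0 := by linear_combination e0
  have f1 : x * (t1 - t3) + y * (t2 - t3) = 0 := by linear_combination e1
  have f2 : x * ((s1 - s3) ^ 2 - ε * (t1 - t3) ^ 2) + y * ((s2 - s3) ^ 2 - ε * (t2 - t3) ^ 2) = 0 := by
    linear_combination e2 - 2 * s3 * e0 + 2 * ε * t3 * e1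
  have g1 : x * (x + y) * ((s1 - s3) ^ 2 - ε * (t1 - t3) ^ 2) = 0 := by
    linear_combination y * f2 + (x * (s1 - s3) - y * (s2 - s3)) * f0
      - ε * (x * (t1 - t3) - y * (t2 - t3)) * f1
  have n13 := ne a d had
  have n23 := ne b d hbd
  have n12 := ne a b hab
  have g2 : x * (x + y) = 0 := (mul_eq_zero.1 g1).resolve_right n13
  have hx : x = 0 := by
    by_contra hx
    have hy : y = -x := by
      have := (mul_eq_zero.1 g2).resolve_left hx
      linear_combination this
    subst hy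
    apply n12
    have a1 : s1 - s2 = 0 := mul_left_cancel₀ hx (by linear_combination f0)
    have a2 : t1 - t2 = 0 := mul_left_cancel₀ hx (by linear_combination f1)
    show (s1 - s2) ^ 2 - ε * (t1 - t2) ^ 2 = 0
    rw [a1, a2]; ring
  subst hx
  have hy : y = 0 := by
    have : y * ((s2 - s3) ^ 2 - ε * (t2 - t3) ^ 2) = 0 := by linear_combination f2
    exact (mul_eq_zero.1 this).resolve_right n23
  subst hy
  simp

end Crest.Agent.R32
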