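import Mathlib
import Crest.Agent.R32.Orbit
import Crest.Agent.R32.Digits

/-!
Row 32: the count of bad group elements for one triple.
-/

set_option autoImplicit false

namespace Crest.Agent.R32

open Finset Matrix

/-- parameters of the construction -/
structure Par where
  t : ℕ
  nL : ℕ
  p : ℕ
  l : ℕ
  τ : ℕ
  W : ℕ
  q : ℕ
  f : Fin t → Fin nL → ℕ
  g : Fin t → Fin nL → ℕ
  e : Fin t → Fin nL → ℕ
  hp : p.Prime
  hl : l.Prime
  hq : q.Prime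
  h3 : 3 ≤ p
  hpl : p < l
  hlq : l < q
  hnL : 0 < nL
  hf : ∀ α i, f α i < p
  hg : ∀ α i, g α i < p
  he : ∀ α i, e α i < p
  hnd : ∀ a b c, a ≠ b → a ≠ c → b ≠ c → ¬ (p : ℤ) ∣
    ∑ α, dd (fun i => (f α i : ℤ)) (fun i => (g α i : ℤ)) (fun i => (e α i : ℤ)) a b c
  hsep : ∀ a b, a ≠ b → ∃ α, g α a ≠ g α b
  hτ : 2 * 2 ^ t < τ
  hB : 24 * ((t * p + p * W) * (t * p) * (1 + t * p)) ≤ l
  hW : W ≤ l
  hW2 : 2 * l ≤ W ^ 2
  hC3 : (l ^ (2 ^ t + 1)) ^ 3 * (W ^ (2 ^ t) * ((τ + 2) * l ^ (τ + 1))) ≤ W ^ (2 * (τ + 1))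
  hY : (2 * (2 * (l ^ (τ + 1) * q)) + 1) ^ 5 * (2 * l ^ (τ + 1) + 1) ^ 3 * (l ^ (τ + 1)) ^ 6 ≤
    (2 * (l ^ (τ + 1) * q)) ^ 6

lemma exists_lift (H q : ℕ) [NeZero H] [NeZero q] (hc : H.Coprime q) (a : ZMod H) (b : ZMod q) :
    ∃ n : ℕ, n < H * q ∧ (n : ZMod H) = a ∧ (n : ZMod q) = b := by
  refine ⟨Nat.chineseRemainder hc a.val b.val,
    Nat.chineseRemainder_lt_mul hc _ _ (NeZero.ne H) (NeZero.ne q), ?_, ?_⟩
  · rw [(ZMod.natCast_eq_natCast_iff _ _ _).2 (Nat.chineseRemainder hc a.val b.val).2.1]; simp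
  · rw [(ZMod.natCast_eq_natCast_iff _ _ _).2 (Nat.chineseRemainder hc a.val b.val).2.2]; simp

lemma AI_int (q : ℕ) (hq : 2 ≤ q) (A : Fin 3 → V3)
    (H : AI (fun i => ((A i 0 : ℤ) : ZMod q)) (fun i => ((A i 1 : ℤ) : ZMod q))
      (fun i => ((A i 2 : ℤ) : ZMod q))) :
    ∀ κ : V3, κ 0 + κ 1 + κ 2 = 0 → (∀ i, dt κ (A i) = 0) → κ = 0 := by
  have key : ∀ n : ℕ, ∀ κ : V3, nrm κ ≤ n → κ 0 + κ 1 + κ 2 = 0 → (∀ i, dt κ (A i) = 0) → κ = 0 := by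
    intro n
    induction n with
    | zero =>
      intro κ hn _ _
      by_contra h0
      have := nrm_pos h0
      push_cast at hn
      omega
    | succ n ih =>
      intro κ hn h1 h2
      obtain ⟨a0, a1, a2⟩ := H (κ 0) (κ 1) (κ 2) (by exact_mod_cast congrArg (Int.cast : ℤ → ZMod q) h1)
        (by
          funext i
          have := congrArg (Int.cast : ℤ → ZMod q) (h2 i)
          simp only [dt] at this
          push_cast at this
          simpa using this)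
      rw [ZMod.intCast_zmod_eq_zero_iff_dvd] at a0 a1 a2
      obtain ⟨b0, hb0⟩ := a0
      obtain ⟨b1, hb1⟩ := a1
      obtain ⟨b2, hb2⟩ := a2
      have hκ : κ = (q : ℤ) • (![b0, b1, b2] : V3) := v3_ext (by simpa using hb0)
        (by simpa using hb1) (by simpa using hb2)
      have hq0 : (q : ℤ) ≠ 0 := by omega
      have h3 : (![b0, b1, b2] : V3) = 0 := by
        apply ih
        · rw [hκ, nrm_smul, Nat.abs_cast] at hn
          have h4 := nrm_nonneg (![b0, b1, b2] : V3)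
          have h5 : (2 : ℤ) ≤ q := by exact_mod_cast hq
          push_cast at hn
          by_contra h6
          have : 2 * nrm (![b0, b1, b2] : V3) ≤ q * nrm (![b0, b1, b2] : V3) :=
            mul_le_mul_of_nonneg_right h5 h4
          omega
        · apply mul_left_cancel₀ hq0
          simp only [Matrix.cons_val_zero, Matrix.cons_val_one, Matrix.cons_val]
          rw [hb0, hb1, hb2] at h1
          linarith
        · intro i
          have := h2 i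
          rw [hκ, dt_smul] at this
          exact (mul_eq_zero.1 this).resolve_left hq0
      rw [hκ, h3, smul_zero]
  intro κ
  exact key (nrm κ).toNat κ (by have := nrm_nonneg κ; omega)

namespace Par

variable (P : Par)

abbrev H : ℕ := P.l ^ (P.τ + 1)
abbrev Y : ℕ := 2 * (P.H * P.q)
abbrev S : Type := Fin P.nL × (Fin (P.τ + 1) → Fin P.W)
abbrev Gp : Type := Matrix (Fin 3) (Fin 3) (ZMod P.H) ×
  (Matrix (Fin 3) (Fin 3) (ZMod P.q) × (Fin 3 → ZMod P.q))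

instance instH : NeZero P.H := ⟨pow_ne_zero _ P.hl.ne_zero⟩
instance instq : NeZero P.q := ⟨P.hq.ne_zero⟩

lemma cop : P.H.Coprime P.q :=
  Nat.Coprime.pow_left _ ((Nat.coprime_primes P.hl P.hq).2 P.hlq.ne)

lemma H_pos : 0 < P.H := pow_pos P.hl.pos _

def x (s : P.S) : ℤ := xv P.f P.p P.l s
def y (s : P.S) : ℤ := yv P.g P.l s.1
def z (s : P.S) : ℤ := zv P.e P.l P.τ s.1

/-- the residue vector -/
def u0 (s : P.S) : V3 := ![P.x s, P.y s, P.z s]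

/-- CRT lift -/
noncomputable def lift (a : Fin 3 → ZMod P.H) (b : Fin 3 → ZMod P.q) : V3 := fun i =>
  ((Classical.choose (exists_lift P.H P.q P.cop (a i) (b i)) : ℕ) : ℤ) +
    (if i = 2 then ((P.H * P.q : ℕ) : ℤ) else 0)

lemma lift_H (a : Fin 3 → ZMod P.H) (b : Fin 3 → ZMod P.q) (i : Fin 3) :
    ((P.lift a b i : ℤ) : ZMod P.H) = a i := by
  have := (Classical.choose_spec (exists_lift P.H P.q P.cop (a i) (b i))).2.1
  unfold lift
  split_ifs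
  · rw [Int.cast_add, Int.cast_natCast, Int.cast_natCast, this, Nat.cast_mul, ZMod.natCast_self]
    simp
  · rw [add_zero, Int.cast_natCast, this]

lemma lift_q (a : Fin 3 → ZMod P.H) (b : Fin 3 → ZMod P.q) (i : Fin 3) :
    ((P.lift a b i : ℤ) : ZMod P.q) = b i := by
  have := (Classical.choose_spec (exists_lift P.H P.q P.cop (a i) (b i))).2.2
  unfold lift
  split_ifs
  · rw [Int.cast_add, Int.cast_natCast, Int.cast_natCast, this, Nat.cast_mul, ZMod.natCast_self]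
    simp
  · rw [add_zero, Int.cast_natCast, this]

lemma lift_range (a : Fin 3 → ZMod P.H) (b : Fin 3 → ZMod P.q) :
    0 ≤ P.lift a b 0 ∧ P.lift a b 0 < (P.H * P.q : ℕ) ∧ 0 ≤ P.lift a b 1 ∧
      P.lift a b 1 < (P.H * P.q : ℕ) ∧ ((P.H * P.q : ℕ) : ℤ) ≤ P.lift a b 2 ∧
      P.lift a b 2 < 2 * (P.H * P.q : ℕ) := by
  have h0 := (Classical.choose_spec (exists_lift P.H P.q P.cop (a 0) (b 0))).1
  have h1 := (Classical.choose_spec (exists_lift P.H P.q P.cop (a 1) (b 1))).1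
  have h2 := (Classical.choose_spec (exists_lift P.H P.q P.cop (a 2) (b 2))).1
  unfold lift
  rw [if_neg (by decide), if_neg (by decide), if_pos rfl]
  omega

lemma lift_box (a : Fin 3 → ZMod P.H) (b : Fin 3 → ZMod P.q) (i : Fin 3) :
    0 ≤ P.lift a b i ∧ P.lift a b i ≤ (P.Y : ℕ) := by
  obtain ⟨h0, h1, h2, h3, h4, h5⟩ := P.lift_range a b
  have hY : ((P.Y : ℕ) : ℤ) = 2 * (P.H * P.q : ℕ) := by simp only [Y]; push_cast; ring
  rw [hY]
  fin_cases i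
  · show 0 ≤ P.lift a b 0 ∧ P.lift a b 0 ≤ _
    omega
  · show 0 ≤ P.lift a b 1 ∧ P.lift a b 1 ≤ _
    omega
  · show 0 ≤ P.lift a b 2 ∧ P.lift a b 2 ≤ _
    omega

/-- the random point -/
noncomputable def Pt (γ : P.Gp) (s : P.S) (c : Fin 3 → ZMod P.q) : V3 :=
  P.lift (γ.1 *ᵥ fun i => (P.u0 s i : ZMod P.H)) (γ.2.1 *ᵥ c + γ.2.2)

/-- matrix of three random points (as columns) -/
noncomputable def Am (γ : P.Gp) (s : Fin 3 → P.S) (c : Fin 3 → Fin 3 → ZMod P.q) : Fin 3 → V3 :=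
  fun i j => P.Pt γ (s j) (c j) i

/-- residue matrix -/
def Mb (s : Fin 3 → P.S) : Matrix (Fin 3) (Fin 3) (ZMod P.H) :=
  Matrix.of fun i j => (P.u0 (s j) i : ZMod P.H)

/-- determinant of the residue vectors -/
def D0 (s : Fin 3 → P.S) : ℤ := dd P.x P.y P.z (s 0) (s 1) (s 2)

/-- the group sample space -/
noncomputable def Γ : Finset P.Gp := SL3 P.H ×ˢ (GL3 P.q ×ˢ univ)

lemma Am_H (γ : P.Gp) (s : Fin 3 → P.S) (c : Fin 3 → Fin 3 → ZMod P.q) :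
    γ.1 * P.Mb s = Matrix.of fun i j => ((P.Am γ s c i j : ℤ) : ZMod P.H) := by
  ext i j
  simp only [Am, Pt, lift_H, Matrix.of_apply]
  rfl

lemma Am_q (γ : P.Gp) (s : Fin 3 → P.S) (c : Fin 3 → Fin 3 → ZMod P.q) :
    affM γ.2 c = Matrix.of fun i j => ((P.Am γ s c i j : ℤ) : ZMod P.q) := by
  ext i j
  simp only [Am, Pt, lift_q, Matrix.of_apply]
  rfl

lemma det_Mb (s : Fin 3 → P.S) : (P.Mb s).det = (P.D0 s : ZMod P.H) := by
  rw [Matrix.det_fin_three]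
  simp [Mb, u0, D0, dd]
  ring

lemma det_cast (A : Fin 3 → V3) (n : ℕ) :
    (Matrix.of fun i j => ((A i j : ℤ) : ZMod n)).det = (det3 A : ZMod n) := by
  rw [Matrix.det_fin_three]
  simp [det3, dt]
  ring

lemma Am_det (γ : P.Gp) (hγ : γ ∈ P.Γ) (s : Fin 3 → P.S) (c : Fin 3 → Fin 3 → ZMod P.q) :
    (P.H : ℤ) ∣ det3 (P.Am γ s c) - P.D0 s := by
  have h1 : γ.1.det = 1 := (Finset.mem_filter.1 (Finset.mem_product.1 hγ).1).2
  have h2 := congrArg Matrix.det (P.Am_H γ s c)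
  rw [Matrix.det_mul, h1, one_mul, det_Mb, det_cast] at h2
  rw [← ZMod.intCast_zmod_eq_zero_iff_dvd, Int.cast_sub, h2, sub_self]

lemma Am_mem (γ : P.Gp) (s : Fin 3 → P.S) (c : Fin 3 → Fin 3 → ZMod P.q) (i : Fin 3) :
    P.Am γ s c i ∈ Lam (P.Mb s) :=
  mem_Lam.2 ⟨γ.1 i, congrFun (P.Am_H γ s c) i⟩

lemma Am_AI (γ : P.Gp) (hγ : γ ∈ P.Γ) (s : Fin 3 → P.S) (c : Fin 3 → Fin 3 → ZMod P.q)
    (hc : AI (c 0) (c 1) (c 2)) :
    ∀ κ : V3, κ 0 + κ 1 + κ 2 = 0 → (∀ i, dt κ (P.Am γ s c i) = 0) → κ = 0 := by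
  apply AI_int P.q P.hq.two_le
  have := AI_map hc γ.2.1 (Finset.mem_product.1 (Finset.mem_product.1 hγ).2).1 γ.2.2
  simp only [Am, Pt, lift_q]
  exact this

lemma z_cop (s : P.S) : IsCoprime (P.z s) P.l :=
  zv_coprime P.e P.l P.τ (by have := P.hτ; omega) s.1

lemma z_unit (s : P.S) : IsUnit (P.z s : ZMod P.H) := by
  rw [ZMod.coe_int_isUnit_iff_isCoprime]
  simp only [H]
  push_cast
  exact IsCoprime.pow_left (P.z_cop s).symm

/-- the relevant 2 x 2 minor -/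
def μ (s s' : P.S) : ℤ := P.x s * P.z s' - P.x s' * P.z s

/-- bound for the degeneracy -/
def Jb (s0 s1 s2 : P.S) : ℕ := ∑ j ∈ range (P.τ + 1 + 1),
  if (P.l : ℤ) ^ j ∣ P.μ s0 s1 ∧ (P.l : ℤ) ^ j ∣ P.μ s0 s2 then P.l ^ j else 0

lemma J_le_Jb (s : Fin 3 → P.S) :
    ((Ann (P.Mb s)).filter fun ν => ν 1 = 0).card ≤ P.Jb (s 0) (s 1) (s 2) := by
  refine (J_le (P.Mb s) (P.z_unit (s 0))).trans ?_
  refine le_trans (le_of_eq ?_) (card_ann_le P.l (P.τ + 1) P.hl (P.μ (s 0) (s 1)) (P.μ (s 0) (s 2)))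
  congr 1
  refine Finset.filter_congr fun a _ => ?_
  simp [Mb, u0, μ]

lemma Hu (a : ZMod P.H) : IsUnit (1 + a) ∨ IsUnit (1 + -a) :=
  Hu_pow P.l _ P.hl (by have := P.h3; have := P.hpl; omega) a

/-- logarithmic factor -/
noncomputable def Lg : ℝ := 1 + Real.log (2 * P.H * P.Y ^ 2 : ℕ)

lemma Lg_nonneg : 0 ≤ P.Lg := by
  have := Real.log_natCast_nonneg (2 * P.H * P.Y ^ 2)
  unfold Lg; linarith

/-- the loss factor -/
noncomputable def Θ (s0 s1 s2 : P.S) : ℝ :=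
  if (P.l : ℤ) ^ (P.τ + 1 - 2 ^ P.t) ∣ P.μ s0 s1 ∧ s0.1 ≠ s2.1 then
    ((P.l : ℝ) ^ (2 ^ P.t + 1)) ^ 3 else 1

lemma one_le_Θ (s0 s1 s2 : P.S) : 1 ≤ P.Θ s0 s1 s2 := by
  unfold Θ
  split_ifs
  · have : (1 : ℝ) ≤ P.l := by exact_mod_cast P.hl.one_le
    exact one_le_pow₀ (one_le_pow₀ this)
  · exact le_rfl

lemma zrow_mem (s : Fin 3 → P.S) : (fun j => P.z (s j)) ∈ Lam (P.Mb s) :=
  row_mem_Lam _ _ 2 (fun j => by simp [Mb, u0])

lemma mu_of_det (s : Fin 3 → P.S) (h01 : (s 0).1 = (s 1).1) (h02 : (s 0).1 ≠ (s 2).1)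
    (hd : (P.H : ℤ) ∣ P.D0 s) : (P.l : ℤ) ^ (P.τ + 1 - 2 ^ P.t) ∣ P.μ (s 0) (s 1) := by
  have hy : P.y (s 1) = P.y (s 0) := by unfold y; rw [h01]
  have hz : P.z (s 1) = P.z (s 0) := by unfold z; rw [h01]
  have e1 : P.D0 s = (P.x (s 0) - P.x (s 1)) * (P.y (s 0) * P.z (s 2) - P.y (s 2) * P.z (s 0)) := by
    unfold D0 dd; rw [hy, hz]; ring
  have hτ := P.hτ
  have hk1 : 1 ≤ 2 ^ P.t := Nat.one_le_two_pow
  have hnot : ¬ (P.l : ℤ) ^ (2 ^ P.t - 1 + 1) ∣ P.y (s 0) * P.z (s 2) - P.y (s 2) * P.z (s 0) := by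
    rw [Nat.sub_add_cancel hk1]
    intro h1
    apply yv_sep P.g P.p P.l P.hg (by exact_mod_cast P.hpl.le) _ _ (P.hsep _ _ h02)
    have z0 := zv_mod P.e P.l P.τ (2 ^ P.t) (by omega) (s 0).1
    have z2 := zv_mod P.e P.l P.τ (2 ^ P.t) (by omega) (s 2).1
    have := dvd_add (dvd_sub h1 (z2.mul_left (P.y (s 0)))) (z0.mul_left (P.y (s 2)))
    exact dvd_eq this (by unfold y z; ring)
  simp only [H] at hd
  push_cast at hd
  rw [e1] at hd
  have h2 := pow_dvd_left_of_not_dvd P.l (Nat.prime_iff_prime_int.1 P.hl) _ _ _ _ hd hnot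
  have h3 : (P.l : ℤ) ^ (P.τ + 1 - 2 ^ P.t) ∣ P.x (s 0) - P.x (s 1) :=
    (pow_dvd_pow _ (by omega)).trans h2
  exact dvd_eq (h3.mul_right (P.z (s 0))) (by unfold μ; rw [hz]; ring)

lemma image_bound (s : Fin 3 → P.S) (h01 : (s 0).1 = (s 1).1) (B : Finset (Fin 3 → V3))
    (hB : ∀ A ∈ B, (∀ i j, 0 ≤ A i j ∧ A i j ≤ (P.Y : ℕ)) ∧ (∀ i, A i ∈ Lam (P.Mb s)) ∧
      2 * |det3 A| < (P.l : ℤ) ^ P.τ ∧ (P.H : ℤ) ∣ det3 A - P.D0 s ∧
      ∀ κ : V3, κ 0 + κ 1 + κ 2 = 0 → (∀ i, dt κ (A i) = 0) → κ = 0) :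
    (B.card : ℝ) * ((Ann (P.Mb s)).card : ℝ) ^ 2 ≤
      (P.Y : ℝ) ^ 6 * (1 + 18 ^ 3 * (729 * P.Θ (s 0) (s 1) (s 2) + 208 * P.Lg)) := by
  have hΘ := P.one_le_Θ (s 0) (s 1) (s 2)
  have hLg := P.Lg_nonneg
  rcases B.eq_empty_or_nonempty with h0 | ⟨A0, hA0⟩
  · rw [h0]; simp only [Finset.card_empty, Nat.cast_zero, zero_mul]; positivity
  set I := (Ann (P.Mb s)).card with hI
  have hI0 : 0 < I := Ann_pos _
  have hIR : (0 : ℝ) < I := by exact_mod_cast hI0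
  have hlH : (P.l : ℤ) ^ P.τ ≤ P.H := by
    simp only [H]; push_cast
    exact pow_le_pow_right₀ (by exact_mod_cast P.hl.one_le) (by omega)
  have hsame : ∀ A ∈ B, det3 A = det3 A0 := by
    intro A hA
    have h1 : (P.H : ℤ) ∣ det3 A - det3 A0 :=
      dvd_eq (dvd_sub (hB A hA).2.2.2.1 (hB A0 hA0).2.2.2.1) (by ring)
    have h2 := (hB A hA).2.2.1
    have h3 := (hB A0 hA0).2.2.1
    have h4 := abs_sub (det3 A) (det3 A0)
    have := Int.eq_zero_of_abs_lt_dvd h1 (by omega)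
    linarith
  by_cases hr : det3 A0 = 0
  · have hd : (P.H : ℤ) ∣ P.D0 s := by
      have := (hB A0 hA0).2.2.2.1
      rw [hr, zero_sub, dvd_neg] at this
      exact this
    have main : ∀ ρ : ℕ, 0 < ρ → ((P.H : ℝ) / ρ) ^ 3 ≤ P.Θ (s 0) (s 1) (s 2) →
        (∀ κ : V3, (P.H : ℤ) ∣ dt κ (fun j => P.z (s j)) → (ρ : ℤ) ∣ κ 0 + κ 1 + κ 2) →
        (B.card : ℝ) * (I : ℝ) ^ 2 ≤
        (P.Y : ℝ) ^ 6 * (1 + 18 ^ 3 * (729 * P.Θ (s 0) (s 1) (s 2) + 208 * P.Lg)) := by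
      intro ρ hρ hρΘ hρd
      have := count_zero (Lam (P.Mb s)) P.H P.H_pos I hI0 (Lam_H1 _) (Lam_H2 _) (K0 _) (card_K0 _)
        (Lam_H3 _) ρ hρ (fun κ hκ => hρd κ (hκ _ (P.zrow_mem s))) B P.Y
        (fun A hA => ⟨(hB A hA).1, (hB A hA).2.1, (hsame A hA).trans hr⟩)
        (fun A hA => (hB A hA).2.2.2.2)
      calc (B.card : ℝ) * (I : ℝ) ^ 2 ≤ (18 ^ 3 * (P.Y : ℝ) ^ 6 / (I : ℝ) ^ 2 *
            (729 * ((P.H : ℝ) / ρ) ^ 3 + 208 * P.Lg)) * (I : ℝ) ^ 2 :=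
            mul_le_mul_of_nonneg_right this (by positivity)
        _ = (P.Y : ℝ) ^ 6 * (0 + 18 ^ 3 * (729 * ((P.H : ℝ) / ρ) ^ 3 + 208 * P.Lg)) := by
            field_simp; ring
        _ ≤ _ := by gcongr; norm_num
    by_cases h02 : (s 0).1 = (s 2).1
    · apply main P.H P.H_pos
      · rw [div_self (by exact_mod_cast P.H_pos.ne'), one_pow]; exact hΘ
      · intro κ hκ
        have hz1 : P.z (s 1) = P.z (s 0) := by unfold z; rw [h01]
        have hz2 : P.z (s 2) = P.z (s 0) := by unfold z; rw [h02]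
        simp only [dt, hz1, hz2] at hκ
        have hc : IsCoprime (P.H : ℤ) (P.z (s 0)) := by
          simp only [H]; push_cast
          exact IsCoprime.pow_left (P.z_cop (s 0)).symm
        exact hc.dvd_of_dvd_mul_right (dvd_eq hκ (by ring))
    · have hτ := P.hτ
      apply main (P.l ^ (P.τ - 2 ^ P.t)) (pow_pos P.hl.pos _)
      · unfold Θ
        rw [if_pos ⟨P.mu_of_det s h01 h02 hd, h02⟩]
        apply le_of_eq
        congr 1
        have hl : (P.l : ℝ) ≠ 0 := by exact_mod_cast P.hl.ne_zero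
        simp only [H]
        push_cast
        rw [div_eq_iff (pow_ne_zero _ hl), ← pow_add]
        congr 1; omega
      · intro κ hκ
        have z0 := zv_mod P.e P.l P.τ (P.τ - 2 ^ P.t) (by omega) (s 0).1
        have z1 := zv_mod P.e P.l P.τ (P.τ - 2 ^ P.t) (by omega) (s 1).1
        have z2 := zv_mod P.e P.l P.τ (P.τ - 2 ^ P.t) (by omega) (s 2).1
        have h1 : (P.l : ℤ) ^ (P.τ - 2 ^ P.t) ∣ dt κ (fun j => P.z (s j)) := by
          refine Dvd.dvd.trans ?_ hκ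
          simp only [H]; push_cast
          exact pow_dvd_pow _ (by omega)
        push_cast
        have := dvd_sub (dvd_sub (dvd_sub h1 (z0.mul_left (κ 0))) (z1.mul_left (κ 1)))
          (z2.mul_left (κ 2))
        exact dvd_eq this (by simp only [dt, z]; ring)
  · have := count_nonzero (Lam (P.Mb s)) P.H P.H_pos I hI0 (Lam_H1 _) (Lam_H2 _) (K0 _) (card_K0 _)
      (Lam_H3 _) B P.Y (det3 A0) hr (by have := (hB A0 hA0).2.2.1; have := abs_nonneg (det3 A0); omega)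
      (fun A hA => ⟨(hB A hA).1, (hB A hA).2.1, hsame A hA⟩)
    have hIH : I ≤ P.H ^ 3 := by
      have := Finset.card_le_univ (Ann (P.Mb s))
      simpa [ZMod.card] using this
    have hshort : (((2 * P.Y + 1) ^ 5 * (2 * P.H + 1) ^ 3 : ℕ) : ℝ) * (I : ℝ) ^ 2 ≤ (P.Y : ℝ) ^ 6 := by
      have h1 : (2 * P.Y + 1) ^ 5 * (2 * P.H + 1) ^ 3 * I ^ 2 ≤ P.Y ^ 6 := by
        refine le_trans ?_ P.hY
        apply Nat.mul_le_mul_left
        calc I ^ 2 ≤ (P.H ^ 3) ^ 2 := Nat.pow_le_pow_left hIH 2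
          _ = _ := by rw [← pow_mul]
      exact_mod_cast h1
    calc (B.card : ℝ) * (I : ℝ) ^ 2 ≤ (((2 * P.Y + 1) ^ 5 * (2 * P.H + 1) ^ 3 : ℕ) +
          18 ^ 3 * (P.Y : ℝ) ^ 6 / (I : ℝ) ^ 2 * (27 + 208 * P.Lg)) * (I : ℝ) ^ 2 :=
          mul_le_mul_of_nonneg_right this (by positivity)
      _ = (((2 * P.Y + 1) ^ 5 * (2 * P.H + 1) ^ 3 : ℕ) : ℝ) * (I : ℝ) ^ 2 +
          (P.Y : ℝ) ^ 6 * (18 ^ 3 * (27 + 208 * P.Lg)) := by field_simp
      _ ≤ (P.Y : ℝ) ^ 6 + (P.Y : ℝ) ^ 6 * (18 ^ 3 * (729 * P.Θ (s 0) (s 1) (s 2) + 208 * P.Lg)) := by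
          gcongr; linarith
      _ = _ := by ring

/-- bad group elements for a triple -/
noncomputable def bad (s : Fin 3 → P.S) (c : Fin 3 → Fin 3 → ZMod P.q) : Finset P.Gp :=
  P.Γ.filter fun γ => 2 * |det3 (P.Am γ s c)| < (P.l : ℤ) ^ P.τ

theorem card_bad (s : Fin 3 → P.S) (h01 : (s 0).1 = (s 1).1) (c : Fin 3 → Fin 3 → ZMod P.q)
    (hc : AI (c 0) (c 1) (c 2)) :
    ((P.bad s c).card : ℝ) ≤ 2 * (P.q : ℝ) ^ 3 * (P.Y : ℝ) ^ 6 * ((P.Jb (s 0) (s 1) (s 2) : ℝ) *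
      (1 + 18 ^ 3 * (729 * P.Θ (s 0) (s 1) (s 2) + 208 * P.Lg))) := by
  classical
  set I := (Ann (P.Mb s)).card with hI
  have h1 : (P.bad s c).card ≤ (2 * I ^ 2 * P.Jb (s 0) (s 1) (s 2) * P.q ^ 3) *
      ((P.bad s c).image fun γ => P.Am γ s c).card := by
    apply Finset.card_le_mul_card_image
    intro A _
    have h2 := (card_stab P.Hu (P.Mb s) (Matrix.of fun i j => ((A i j : ℤ) : ZMod P.H))).trans
      (Nat.mul_le_mul_left _ (P.J_le_Jb s))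
    have h3 := card_aff c hc (Matrix.of fun i j => ((A i j : ℤ) : ZMod P.q))
    refine le_trans ?_ (Nat.mul_le_mul h2 h3)
    rw [← Finset.card_product]
    apply Finset.card_le_card
    intro γ hγ
    obtain ⟨h4, h5⟩ := Finset.mem_filter.1 hγ
    have h6 := (Finset.mem_filter.1 h4).1
    refine Finset.mem_product.2 ⟨Finset.mem_filter.2 ⟨(Finset.mem_product.1 h6).1, ?_⟩,
      Finset.mem_filter.2 ⟨Finset.mem_univ _, ?_⟩⟩
    · rw [← h5]; exact P.Am_H γ s c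
    · rw [← h5]; exact P.Am_q γ s c
  have h2 := P.image_bound s h01 ((P.bad s c).image fun γ => P.Am γ s c) (fun A hA => by
    obtain ⟨γ, hγ, rfl⟩ := Finset.mem_image.1 hA
    obtain ⟨h3, h4⟩ := Finset.mem_filter.1 hγ
    exact ⟨fun i j => P.lift_box _ _ i, P.Am_mem γ s c, h4, P.Am_det γ h3 s c,
      P.Am_AI γ h3 s c hc⟩)
  have h1' : ((P.bad s c).card : ℝ) ≤ (2 * (I : ℝ) ^ 2 * P.Jb (s 0) (s 1) (s 2) * (P.q : ℝ) ^ 3) *
      ((P.bad s c).image fun γ => P.Am γ s c).card := by exact_mod_cast h1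
  calc ((P.bad s c).card : ℝ) ≤ _ := h1'
    _ = 2 * (P.q : ℝ) ^ 3 * P.Jb (s 0) (s 1) (s 2) *
        ((((P.bad s c).image fun γ => P.Am γ s c).card : ℝ) * (I : ℝ) ^ 2) := by ring
    _ ≤ 2 * (P.q : ℝ) ^ 3 * P.Jb (s 0) (s 1) (s 2) * ((P.Y : ℝ) ^ 6 *
        (1 + 18 ^ 3 * (729 * P.Θ (s 0) (s 1) (s 2) + 208 * P.Lg))) :=
        mul_le_mul_of_nonneg_left h2 (by positivity)
    _ = _ := by ring

end Par

end Crest.Agent.R32
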