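import Mathlib
import Crest.Agent.R32.Core1

/-!
Row 32: averaging over the digits, the first-moment bound and the deletion step.
-/

set_option autoImplicit false

namespace Crest.Agent.R32

open Finset Matrix

lemma sum_ite_and {α β : Type} [Fintype α] [Fintype β] (A : α → Prop) (B : β → Prop)
    [DecidablePred A] [DecidablePred B] (c : ℕ) :
    ∑ a, ∑ b, (if A a ∧ B b then c else 0) = c * ((univ.filter A).card * (univ.filter B).card) := by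
  rw [Finset.card_filter, Finset.card_filter, Finset.sum_mul_sum, Finset.mul_sum]
  refine Finset.sum_congr rfl fun a _ => ?_
  rw [Finset.mul_sum]
  refine Finset.sum_congr rfl fun b _ => ?_
  by_cases ha : A a <;> by_cases hb : B b <;> simp [ha, hb]

lemma sum_update {ι S : Type} [Fintype ι] [DecidableEq ι] [Fintype S] (m : ι) (F : (ι → S) → ℝ) :
    ∑ σ : ι → S, ∑ s : S, F (Function.update σ m s) = Fintype.card S * ∑ σ : ι → S, F σ := by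
  have hinv : Function.Involutive
      (fun x : (ι → S) × S => (Function.update x.1 m x.2, x.1 m)) := by
    intro x
    simp
  have h1 := Equiv.sum_comp (hinv.toPerm _) (fun x : (ι → S) × S => F x.1)
  rw [Fintype.sum_prod_type, Fintype.sum_prod_type] at h1
  simp only [Function.Involutive.coe_toPerm, Finset.sum_const, Finset.card_univ, nsmul_eq_mul] at h1
  rw [h1, Finset.mul_sum]

lemma sum_three {ι S : Type} [Fintype ι] [DecidableEq ι] [Fintype S] (a b d : ι) (hab : a ≠ b)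
    (had : a ≠ d) (hbd : b ≠ d) (G : S → S → S → ℝ) :
    (Fintype.card S : ℝ) ^ 3 * ∑ σ : ι → S, G (σ a) (σ b) (σ d) =
      Fintype.card (ι → S) * ∑ s0, ∑ s1, ∑ s2, G s0 s1 s2 := by
  have h1 := sum_update d (fun σ : ι → S => G (σ a) (σ b) (σ d))
  simp only [Function.update_self, Function.update_of_ne had, Function.update_of_ne hbd] at h1
  have h2 := sum_update b (fun σ : ι → S => ∑ s2, G (σ a) (σ b) s2)
  simp only [Function.update_self, Function.update_of_ne hab] at h2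
  have h3 := sum_update a (fun σ : ι → S => ∑ s1, ∑ s2, G (σ a) s1 s2)
  simp only [Function.update_self, Finset.sum_const, Finset.card_univ, nsmul_eq_mul] at h3
  rw [h3, h2, h1]; ring

namespace Par

variable (P : Par)

lemma W_pos : 0 < P.W := by
  have h1 := P.hW2
  have h2 := P.hl.pos
  rcases Nat.eq_zero_or_pos P.W with h | h
  · rw [h] at h1; simp at h1; omega
  · exact h

lemma n_le (s0 : P.S) (i : Fin P.nL) (j : ℕ) (hj : j ≤ P.τ + 1) :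
    (univ.filter fun φ : Fin (P.τ + 1) → Fin P.W => (P.l : ℤ) ^ j ∣ P.μ s0 (i, φ)).card ≤
      P.W ^ (P.τ + 1 - j) := by
  have hc : IsCoprime (-((P.p : ℤ) * P.z s0)) P.l := by
    apply IsCoprime.neg_left
    refine IsCoprime.mul_left ?_ (P.z_cop s0)
    exact Nat.isCoprime_iff_coprime.2 ((Nat.coprime_primes P.hp P.hl).2 P.hpl.ne)
  have h1 := count_Phi (k := P.τ + 1) (W := P.W) (P.l : ℤ) (by exact_mod_cast P.hW) _
    (P.x s0 * zv P.e P.l P.τ i - (∑ α, (P.f α i : ℤ) * (P.l : ℤ) ^ (2 ^ (α : ℕ))) * P.z s0) hc j hj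
  have e : (univ.filter fun φ : Fin (P.τ + 1) → Fin P.W => (P.l : ℤ) ^ j ∣ P.μ s0 (i, φ)) =
      univ.filter fun φ : Fin (P.τ + 1) → Fin P.W => (P.l : ℤ) ^ j ∣
        -((P.p : ℤ) * P.z s0) * Phi P.l φ + (P.x s0 * zv P.e P.l P.τ i -
          (∑ α, (P.f α i : ℤ) * (P.l : ℤ) ^ (2 ^ (α : ℕ))) * P.z s0) := by
    refine Finset.filter_congr fun φ _ => ?_
    have : P.μ s0 (i, φ) = -((P.p : ℤ) * P.z s0) * Phi P.l φ + (P.x s0 * zv P.e P.l P.τ i -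
          (∑ α, (P.f α i : ℤ) * (P.l : ℤ) ^ (2 ^ (α : ℕ))) * P.z s0) := by
      show P.x s0 * zv P.e P.l P.τ i - xv P.f P.p P.l (i, φ) * P.z s0 = _
      unfold xv
      ring
    rw [this]
  rw [e]
  apply Nat.le_of_mul_le_mul_right _ (pow_pos P.W_pos j)
  rw [← pow_add, Nat.sub_add_cancel hj]
  exact h1

lemma sum1 (s0 : P.S) (i i' : Fin P.nL) :
    ∑ φ1, ∑ φ2, (P.Jb s0 (i, φ1) (i', φ2) : ℝ) ≤ 2 * (P.W : ℝ) ^ (2 * (P.τ + 1)) := by
  have h1 : ∑ φ1, ∑ φ2, P.Jb s0 (i, φ1) (i', φ2) ≤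
      ∑ j ∈ range (P.τ + 1 + 1), P.l ^ j * (P.W ^ (P.τ + 1 - j) * P.W ^ (P.τ + 1 - j)) := by
    unfold Jb
    simp only [Finset.sum_comm (t := range (P.τ + 1 + 1))]
    refine Finset.sum_le_sum fun j hj => ?_
    have hj' : j ≤ P.τ + 1 := Nat.lt_succ_iff.1 (Finset.mem_range.1 hj)
    rw [sum_ite_and (fun φ1 => (P.l : ℤ) ^ j ∣ P.μ s0 (i, φ1))
      (fun φ2 => (P.l : ℤ) ^ j ∣ P.μ s0 (i', φ2))]
    exact Nat.mul_le_mul_left _ (Nat.mul_le_mul (P.n_le s0 i j hj') (P.n_le s0 i' j hj'))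
  have h2 : ∀ j ∈ range (P.τ + 1 + 1),
      ((P.l ^ j * (P.W ^ (P.τ + 1 - j) * P.W ^ (P.τ + 1 - j)) : ℕ) : ℝ) ≤
        (P.W : ℝ) ^ (2 * (P.τ + 1)) * (1 / 2) ^ j := by
    intro j hj
    have hj' : j ≤ P.τ + 1 := Nat.lt_succ_iff.1 (Finset.mem_range.1 hj)
    have h3 : P.l ^ j * (P.W ^ (P.τ + 1 - j) * P.W ^ (P.τ + 1 - j)) * 2 ^ j ≤
        P.W ^ (2 * (P.τ + 1)) := by
      calc P.l ^ j * (P.W ^ (P.τ + 1 - j) * P.W ^ (P.τ + 1 - j)) * 2 ^ j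
          = (2 * P.l) ^ j * (P.W ^ (P.τ + 1 - j) * P.W ^ (P.τ + 1 - j)) := by rw [mul_pow]; ring
        _ ≤ (P.W ^ 2) ^ j * (P.W ^ (P.τ + 1 - j) * P.W ^ (P.τ + 1 - j)) :=
          Nat.mul_le_mul_right _ (Nat.pow_le_pow_left P.hW2 j)
        _ = P.W ^ (2 * (P.τ + 1)) := by
          rw [← pow_mul, ← pow_add, ← pow_add]; congr 1; omega
    rw [one_div, inv_pow, ← div_eq_mul_inv, le_div_iff₀ (by positivity)]
    exact_mod_cast h3
  calc ∑ φ1, ∑ φ2, (P.Jb s0 (i, φ1) (i', φ2) : ℝ)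
      = ((∑ φ1, ∑ φ2, P.Jb s0 (i, φ1) (i', φ2) : ℕ) : ℝ) := by push_cast; rfl
    _ ≤ ((∑ j ∈ range (P.τ + 1 + 1),
        P.l ^ j * (P.W ^ (P.τ + 1 - j) * P.W ^ (P.τ + 1 - j)) : ℕ) : ℝ) := by exact_mod_cast h1
    _ ≤ ∑ j ∈ range (P.τ + 1 + 1), (P.W : ℝ) ^ (2 * (P.τ + 1)) * (1 / 2) ^ j := by
        rw [Nat.cast_sum]; exact Finset.sum_le_sum h2
    _ = (P.W : ℝ) ^ (2 * (P.τ + 1)) * ∑ j ∈ range (P.τ + 1 + 1), (1 / 2 : ℝ) ^ j := by
        rw [Finset.mul_sum]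
    _ ≤ (P.W : ℝ) ^ (2 * (P.τ + 1)) * 2 :=
        mul_le_mul_of_nonneg_left (sum_geometric_two_le _) (by positivity)
    _ = _ := by ring

lemma sum2 (s0 : P.S) (i i' : Fin P.nL) :
    ∑ φ1, ∑ φ2, (if (P.l : ℤ) ^ (P.τ + 1 - 2 ^ P.t) ∣ P.μ s0 (i, φ1) then
      P.Jb s0 (i, φ1) (i', φ2) else 0) ≤ P.W ^ (2 ^ P.t) * ((P.τ + 2) * P.l ^ (P.τ + 1)) := by
  have hτ := P.hτ
  have h1 : ∀ φ1 φ2, (if (P.l : ℤ) ^ (P.τ + 1 - 2 ^ P.t) ∣ P.μ s0 (i, φ1) then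
      P.Jb s0 (i, φ1) (i', φ2) else 0) ≤ ∑ j ∈ range (P.τ + 1 + 1),
        if (P.l : ℤ) ^ (P.τ + 1 - 2 ^ P.t) ∣ P.μ s0 (i, φ1) ∧ (P.l : ℤ) ^ j ∣ P.μ s0 (i', φ2)
          then P.l ^ j else 0 := by
    intro φ1 φ2
    split_ifs with h
    · unfold Jb
      refine Finset.sum_le_sum fun j _ => ?_
      split_ifs with h2 h3
      · exact le_rfl
      · exact absurd ⟨h, h2.2⟩ h3
      · exact Nat.zero_le _
      · exact le_rfl
    · exact Nat.zero_le _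
  refine le_trans (Finset.sum_le_sum fun φ1 _ => Finset.sum_le_sum fun φ2 _ => h1 φ1 φ2) ?_
  simp only [Finset.sum_comm (t := range (P.τ + 1 + 1))]
  calc _ ≤ ∑ _j ∈ range (P.τ + 1 + 1), P.W ^ (2 ^ P.t) * P.l ^ (P.τ + 1) := by
        refine Finset.sum_le_sum fun j hj => ?_
        have hj' : j ≤ P.τ + 1 := Nat.lt_succ_iff.1 (Finset.mem_range.1 hj)
        rw [sum_ite_and (fun φ1 => (P.l : ℤ) ^ (P.τ + 1 - 2 ^ P.t) ∣ P.μ s0 (i, φ1))
          (fun φ2 => (P.l : ℤ) ^ j ∣ P.μ s0 (i', φ2))]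
        have a1 := P.n_le s0 i (P.τ + 1 - 2 ^ P.t) (by omega)
        have a2 := (P.n_le s0 i' j hj').trans (Nat.pow_le_pow_left P.hW _)
        rw [show P.τ + 1 - (P.τ + 1 - 2 ^ P.t) = 2 ^ P.t by omega] at a1
        calc _ ≤ P.l ^ j * (P.W ^ (2 ^ P.t) * P.l ^ (P.τ + 1 - j)) :=
              Nat.mul_le_mul_left _ (Nat.mul_le_mul a1 a2)
          _ = P.W ^ (2 ^ P.t) * (P.l ^ j * P.l ^ (P.τ + 1 - j)) := by ring
          _ = _ := by rw [← pow_add, Nat.add_sub_cancel' hj']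
    _ = _ := by simp; ring

/-- the total constant -/
noncomputable def K : ℝ := 2 * (1 + 18 ^ 3 * (208 * P.Lg)) + 18 ^ 3 * 729 * 3

/-- weight of a triple -/
noncomputable def wt (s0 s1 s2 : P.S) : ℝ :=
  (P.Jb s0 s1 s2 : ℝ) * (1 + 18 ^ 3 * (729 * P.Θ s0 s1 s2 + 208 * P.Lg))

lemma sum3 (s0 : P.S) (i i' : Fin P.nL) :
    ∑ φ1, ∑ φ2, P.wt s0 (i, φ1) (i', φ2) ≤ (P.W : ℝ) ^ (2 * (P.τ + 1)) * P.K := by
  have hLg := P.Lg_nonneg
  set c : ℝ := ((P.l : ℝ) ^ (2 ^ P.t + 1)) ^ 3 with hc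
  have h1 : ∀ φ1 φ2, P.wt s0 (i, φ1) (i', φ2) ≤
      (1 + 18 ^ 3 * (729 + 208 * P.Lg)) * (P.Jb s0 (i, φ1) (i', φ2) : ℝ) + 18 ^ 3 * 729 * c *
        ((if (P.l : ℤ) ^ (P.τ + 1 - 2 ^ P.t) ∣ P.μ s0 (i, φ1) then
          P.Jb s0 (i, φ1) (i', φ2) else 0 : ℕ) : ℝ) := by
    intro φ1 φ2
    have hJ : (0 : ℝ) ≤ P.Jb s0 (i, φ1) (i', φ2) := by positivity
    have hc0 : 0 ≤ c := by positivity
    unfold wt Θ
    split_ifs with a1 a2 a2
    · rw [← hc]; nlinarith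
    · exact absurd a1.1 a2
    · have := mul_nonneg hc0 hJ
      nlinarith
    · simp only [Nat.cast_zero]; nlinarith
  have h2 := P.sum1 s0 i i'
  have h3 : c * ((∑ φ1, ∑ φ2, (if (P.l : ℤ) ^ (P.τ + 1 - 2 ^ P.t) ∣ P.μ s0 (i, φ1) then
      P.Jb s0 (i, φ1) (i', φ2) else 0) : ℕ) : ℝ) ≤ (P.W : ℝ) ^ (2 * (P.τ + 1)) := by
    have := (Nat.mul_le_mul_left ((P.l ^ (2 ^ P.t + 1)) ^ 3) (P.sum2 s0 i i')).trans P.hC3
    rw [hc]
    exact_mod_cast this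
  calc _ ≤ ∑ φ1, ∑ φ2, ((1 + 18 ^ 3 * (729 + 208 * P.Lg)) * (P.Jb s0 (i, φ1) (i', φ2) : ℝ) +
        18 ^ 3 * 729 * c * ((if (P.l : ℤ) ^ (P.τ + 1 - 2 ^ P.t) ∣ P.μ s0 (i, φ1) then
          P.Jb s0 (i, φ1) (i', φ2) else 0 : ℕ) : ℝ)) :=
        Finset.sum_le_sum fun φ1 _ => Finset.sum_le_sum fun φ2 _ => h1 φ1 φ2
    _ = (1 + 18 ^ 3 * (729 + 208 * P.Lg)) * (∑ φ1, ∑ φ2, (P.Jb s0 (i, φ1) (i', φ2) : ℝ)) +
        18 ^ 3 * 729 * (c * ((∑ φ1, ∑ φ2, (if (P.l : ℤ) ^ (P.τ + 1 - 2 ^ P.t) ∣ P.μ s0 (i, φ1) then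
      P.Jb s0 (i, φ1) (i', φ2) else 0) : ℕ) : ℝ)) := by
        simp only [Finset.sum_add_distrib, ← Finset.mul_sum, Nat.cast_sum]
        ring
    _ ≤ (1 + 18 ^ 3 * (729 + 208 * P.Lg)) * (2 * (P.W : ℝ) ^ (2 * (P.τ + 1))) +
        18 ^ 3 * 729 * (P.W : ℝ) ^ (2 * (P.τ + 1)) := by gcongr
    _ = _ := by unfold K; ring

lemma card_S : Fintype.card P.S = P.nL * P.W ^ (P.τ + 1) := by simp

lemma sum4 : ∑ s0 : P.S, ∑ s1 : P.S, ∑ s2 : P.S, (if s0.1 = s1.1 then P.wt s0 s1 s2 else 0) ≤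
    (P.nL : ℝ) ^ 2 * (P.W : ℝ) ^ (3 * (P.τ + 1)) * P.K := by
  have h1 : ∀ s0 : P.S, ∑ s1 : P.S, ∑ s2 : P.S, (if s0.1 = s1.1 then P.wt s0 s1 s2 else 0) ≤
      P.nL * ((P.W : ℝ) ^ (2 * (P.τ + 1)) * P.K) := by
    intro s0
    rw [Fintype.sum_prod_type, Finset.sum_eq_single s0.1]
    · simp only [if_true, Fintype.sum_prod_type]
      rw [Finset.sum_comm]
      calc _ ≤ ∑ _i' : Fin P.nL, (P.W : ℝ) ^ (2 * (P.τ + 1)) * P.K :=
            Finset.sum_le_sum fun i' _ => P.sum3 s0 s0.1 i'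
        _ = _ := by simp
    · intro i _ hi
      simp [hi.symm]
    · simp
  calc _ ≤ ∑ _s0 : P.S, P.nL * ((P.W : ℝ) ^ (2 * (P.τ + 1)) * P.K) :=
        Finset.sum_le_sum fun s0 _ => h1 s0
    _ = _ := by
        rw [Finset.sum_const, Finset.card_univ, card_S, nsmul_eq_mul]
        push_cast
        ring

lemma card_Γ : P.H ^ 8 * P.q ^ 12 ≤ 32 * P.Γ.card := by
  have h1 := card_SL3 P.Hu
  have h2 : P.q ^ 9 ≤ 8 * (GL3 P.q).card := by
    apply card_GL3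
    have h3 := Hu_pow P.q 1 P.hq (by have := P.h3; have := P.hpl; have := P.hlq; omega)
    rw [pow_one] at h3
    exact h3
  unfold Γ
  rw [Finset.card_product, Finset.card_product, Finset.card_univ]
  simp only [Fintype.card_pi, ZMod.card, Finset.prod_const, Finset.card_univ, Fintype.card_fin]
  calc P.H ^ 8 * P.q ^ 12 = P.H ^ 8 * (P.q ^ 9 * P.q ^ 3) := by ring
    _ ≤ (4 * (SL3 P.H).card) * ((8 * (GL3 P.q).card) * P.q ^ 3) := by gcongr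
    _ = _ := by ring

lemma det3_Am (γ : P.Gp) (s0 s1 s2 : P.S) (c0 c1 c2 : Fin 3 → ZMod P.q) :
    det3 (P.Am γ ![s0, s1, s2] ![c0, c1, c2]) =
      dd (fun v : V3 => v 0) (fun v => v 1) (fun v => v 2)
        (P.Pt γ s0 c0) (P.Pt γ s1 c1) (P.Pt γ s2 c2) := by
  simp [det3, dt, Am, dd]
  ring

theorem core (N : ℕ) (hN : N ≤ P.q ^ 2)
    (hK : 8192 * P.K * (N : ℝ) ^ 2 ≤ P.nL * (P.H : ℝ) ^ 2 * (P.q : ℝ) ^ 3) :
    ∃ (X : Fin N → V3) (R : Finset (Fin N)), N ≤ 2 * R.card ∧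
      (∀ m, 0 ≤ X m 0 ∧ X m 0 ≤ X m 2 ∧ 0 ≤ X m 1 ∧ X m 1 ≤ X m 2 ∧ 0 < X m 2 ∧
        X m 2 ≤ (P.Y : ℕ)) ∧
      ∀ a ∈ R, ∀ b ∈ R, ∀ d ∈ R, a ≠ b → a ≠ d → b ≠ d → (P.l : ℤ) ^ P.τ ≤
        2 * |dd (fun v : V3 => v 0) (fun v => v 1) (fun v => v 2) (X a) (X b) (X d)| := by
  classical
  obtain ⟨c, hc⟩ := exists_cap P.q P.hq (by have := P.h3; have := P.hpl; have := P.hlq; omega) N hN
  let T : Finset (Fin N × Fin N × Fin N) :=
    univ.filter fun x => x.1 ≠ x.2.1 ∧ x.1 ≠ x.2.2 ∧ x.2.1 ≠ x.2.2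
  let Q : (Fin N → P.S) → P.Gp → Fin N × Fin N × Fin N → Prop := fun σ γ x =>
    (σ x.1).1 = (σ x.2.1).1 ∧ 2 * |det3 (P.Am γ ![σ x.1, σ x.2.1, σ x.2.2]
      ![c x.1, c x.2.1, c x.2.2])| < (P.l : ℤ) ^ P.τ
  let Bad : (Fin N → P.S) → P.Gp → Finset (Fin N × Fin N × Fin N) := fun σ γ => T.filter (Q σ γ)
  set cS : ℝ := ((Fintype.card P.S : ℕ) : ℝ) with hcS
  set cΩ : ℝ := ((Fintype.card (Fin N → P.S) : ℕ) : ℝ) with hcΩ
  have hW : (0 : ℝ) < P.W := by exact_mod_cast P.W_pos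
  have hnL : (0 : ℝ) < P.nL := by exact_mod_cast P.hnL
  have hq : (0 : ℝ) < P.q := by exact_mod_cast P.hq.pos
  have hH : (0 : ℝ) < P.H := by exact_mod_cast P.H_pos
  have hcS' : cS = P.nL * (P.W : ℝ) ^ (P.τ + 1) := by rw [hcS, card_S]; push_cast; rfl
  have hcS0 : 0 < cS := by rw [hcS']; positivity
  have hK0 : 0 ≤ P.K := by have := P.Lg_nonneg; unfold K; positivity
  have htrip : ∀ x ∈ T, ∑ σ : Fin N → P.S, ∑ γ ∈ P.Γ, (if Q σ γ x then (1 : ℝ) else 0) ≤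
      cΩ * (2 * (P.q : ℝ) ^ 3 * (P.Y : ℝ) ^ 6 * P.K / P.nL) := by
    intro x hx
    obtain ⟨hab, had, hbd⟩ := (Finset.mem_filter.1 hx).2
    have h1 : ∀ σ : Fin N → P.S, ∑ γ ∈ P.Γ, (if Q σ γ x then (1 : ℝ) else 0) ≤
        2 * (P.q : ℝ) ^ 3 * (P.Y : ℝ) ^ 6 *
          (if (σ x.1).1 = (σ x.2.1).1 then P.wt (σ x.1) (σ x.2.1) (σ x.2.2) else 0) := by
      intro σ
      split_ifs with hl
      · have := P.card_bad ![σ x.1, σ x.2.1, σ x.2.2] hl ![c x.1, c x.2.1, c x.2.2]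
          (hc _ _ _ hab had hbd)
        refine le_trans (le_of_eq ?_) this
        rw [Finset.sum_boole]
        congr 2
        refine Finset.filter_congr fun γ _ => ?_
        simp only [Q, hl, true_and]
      · simp [Q, hl]
    have h2 := sum_three x.1 x.2.1 x.2.2 hab had hbd
      (fun s0 s1 s2 : P.S => if s0.1 = s1.1 then P.wt s0 s1 s2 else 0)
    have h3 := P.sum4
    have h4 : ∑ σ : Fin N → P.S,
        (if (σ x.1).1 = (σ x.2.1).1 then P.wt (σ x.1) (σ x.2.1) (σ x.2.2) else 0) ≤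
        cΩ * (P.K / P.nL) := by
      apply le_of_mul_le_mul_left _ (pow_pos hcS0 3)
      rw [h2]
      calc _ ≤ cΩ * ((P.nL : ℝ) ^ 2 * (P.W : ℝ) ^ (3 * (P.τ + 1)) * P.K) :=
            mul_le_mul_of_nonneg_left h3 (by positivity)
        _ = _ := by rw [hcS']; field_simp; ring
    calc _ ≤ ∑ σ : Fin N → P.S, 2 * (P.q : ℝ) ^ 3 * (P.Y : ℝ) ^ 6 *
          (if (σ x.1).1 = (σ x.2.1).1 then P.wt (σ x.1) (σ x.2.1) (σ x.2.2) else 0) :=
          Finset.sum_le_sum fun σ _ => h1 σ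
      _ ≤ 2 * (P.q : ℝ) ^ 3 * (P.Y : ℝ) ^ 6 * (cΩ * (P.K / P.nL)) := by
          rw [← Finset.mul_sum]
          exact mul_le_mul_of_nonneg_left h4 (by positivity)
      _ = _ := by ring
  have hΓ : (P.H : ℝ) ^ 8 * (P.q : ℝ) ^ 12 ≤ 32 * P.Γ.card := by exact_mod_cast P.card_Γ
  have hΓne : P.Γ.Nonempty := by
    rw [← Finset.card_pos]
    have : (0 : ℝ) < P.Γ.card := by
      have : 0 < (P.H : ℝ) ^ 8 * (P.q : ℝ) ^ 12 := by positivity
      linarith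
    exact_mod_cast this
  have hSne : Nonempty P.S := by
    rw [← Fintype.card_pos_iff]; rw [hcS] at hcS0; exact_mod_cast hcS0
  have htot : ∑ ω ∈ (univ : Finset (Fin N → P.S)) ×ˢ P.Γ, ((Bad ω.1 ω.2).card : ℝ) ≤
      ∑ _ω ∈ (univ : Finset (Fin N → P.S)) ×ˢ P.Γ, (N : ℝ) / 2 := by
    have hT : (T.card : ℝ) ≤ (N : ℝ) ^ 3 := by
      have := Finset.card_le_univ T
      simp only [Fintype.card_prod, Fintype.card_fin] at this
      have h2 : (T.card : ℝ) ≤ N * (N * N) := by exact_mod_cast this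
      linarith [show (N : ℝ) * (N * N) = N ^ 3 by ring]
    have hY : (P.Y : ℝ) = 2 * (P.H * P.q) := by simp only [Y]; push_cast; ring
    calc ∑ ω ∈ (univ : Finset (Fin N → P.S)) ×ˢ P.Γ, ((Bad ω.1 ω.2).card : ℝ)
        = ∑ σ : Fin N → P.S, ∑ γ ∈ P.Γ, ∑ x ∈ T, (if Q σ γ x then (1 : ℝ) else 0) := by
          rw [Finset.sum_product]
          refine Finset.sum_congr rfl fun σ _ => Finset.sum_congr rfl fun γ _ => ?_
          rw [Finset.sum_boole]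
      _ = ∑ x ∈ T, ∑ σ : Fin N → P.S, ∑ γ ∈ P.Γ, (if Q σ γ x then (1 : ℝ) else 0) := by
          simp only [Finset.sum_comm (t := T)]
      _ ≤ ∑ _x ∈ T, cΩ * (2 * (P.q : ℝ) ^ 3 * (P.Y : ℝ) ^ 6 * P.K / P.nL) :=
          Finset.sum_le_sum htrip
      _ ≤ (N : ℝ) ^ 3 * (cΩ * (2 * (P.q : ℝ) ^ 3 * (P.Y : ℝ) ^ 6 * P.K / P.nL)) := by
          rw [Finset.sum_const, nsmul_eq_mul]
          exact mul_le_mul_of_nonneg_right hT (by positivity)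
      _ = cΩ * N * ((P.H : ℝ) ^ 6 * (P.q : ℝ) ^ 9 / 64 / P.nL) * (8192 * P.K * (N : ℝ) ^ 2) := by
          rw [hY]; field_simp; ring
      _ ≤ cΩ * N * ((P.H : ℝ) ^ 6 * (P.q : ℝ) ^ 9 / 64 / P.nL) *
          (P.nL * (P.H : ℝ) ^ 2 * (P.q : ℝ) ^ 3) := mul_le_mul_of_nonneg_left hK (by positivity)
      _ = cΩ * N / 64 * ((P.H : ℝ) ^ 8 * (P.q : ℝ) ^ 12) := by field_simp
      _ ≤ cΩ * N / 64 * (32 * P.Γ.card) := mul_le_mul_of_nonneg_left hΓ (by positivity)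
      _ = _ := by
          rw [Finset.sum_const, Finset.card_product, Finset.card_univ, nsmul_eq_mul]
          push_cast
          ring
  obtain ⟨⟨σ, γ⟩, hω, hle⟩ := Finset.exists_le_of_sum_le
    (Finset.Nonempty.product Finset.univ_nonempty hΓne) htot
  have hγ : γ ∈ P.Γ := (Finset.mem_product.1 hω).2
  have hle' : 2 * (Bad σ γ).card ≤ N := by
    have : (2 : ℝ) * (Bad σ γ).card ≤ N := by simp only at hle; linarith
    exact_mod_cast this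
  refine ⟨fun m => P.Pt γ (σ m) (c m), univ \ (Bad σ γ).image Prod.fst, ?_, ?_, ?_⟩
  · rw [Finset.card_sdiff_of_subset (Finset.subset_univ _), Finset.card_univ, Fintype.card_fin]
    have := Finset.card_image_le (s := Bad σ γ) (f := Prod.fst)
    omega
  · intro m
    obtain ⟨h0, h1, h2, h3, h4, h5⟩ := P.lift_range (γ.1 *ᵥ fun i => (P.u0 (σ m) i : ZMod P.H))
      (γ.2.1 *ᵥ c m + γ.2.2)
    have hY : ((P.Y : ℕ) : ℤ) = 2 * (P.H * P.q : ℕ) := by simp only [Y]; push_cast; ring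
    simp only [Pt]
    rw [hY]
    omega
  · have key : ∀ a ∈ univ \ (Bad σ γ).image Prod.fst, ∀ b d, a ≠ b → a ≠ d → b ≠ d →
        (σ a).1 = (σ b).1 → (P.l : ℤ) ^ P.τ ≤ 2 * |dd (fun v : V3 => v 0) (fun v => v 1)
          (fun v => v 2) (P.Pt γ (σ a) (c a)) (P.Pt γ (σ b) (c b)) (P.Pt γ (σ d) (c d))| := by
      intro a ha b d hab had hbd hl
      by_contra hlt
      apply (Finset.mem_sdiff.1 ha).2
      refine Finset.mem_image.2 ⟨(a, b, d), Finset.mem_filter.2 ⟨Finset.mem_filter.2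
        ⟨Finset.mem_univ _, hab, had, hbd⟩, hl, ?_⟩, rfl⟩
      rw [det3_Am]
      exact not_le.1 hlt
    intro a ha b hb d _ hab had hbd
    by_cases h1 : (σ a).1 = (σ b).1
    · exact key a ha b d hab had hbd h1
    by_cases h2 : (σ a).1 = (σ d).1
    · have := key a ha d b had hab hbd.symm h2
      rw [← abs_neg] at this
      convert this using 3
      unfold dd; ring
    by_cases h3 : (σ b).1 = (σ d).1
    · have := key b hb d a hbd hab.symm had.symm h3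
      convert this using 3
      unfold dd; ring
    have hτ := P.hτ
    apply far P.f P.g P.e P.p P.l P.τ P.hf P.hg P.he (by omega) (by exact_mod_cast P.hB)
      (σ a) (σ b) (σ d) (P.hnd _ _ _ h1 h2 h3)
    have := P.Am_det γ hγ ![σ a, σ b, σ d] ![c a, c b, c d]
    rw [det3_Am] at this
    simp only [H] at this
    push_cast at this
    exact this

end Par

end Crest.Agent.R32
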