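import Mathlib
import Crest.Agent.R32.Core2

/-!
Row 32: choice of parameters.
-/

set_option autoImplicit false

namespace Crest.Agent.R32

open Finset

lemma to_plane (N n Y T : ℕ) (hn : 3 ≤ n) (hT : 0 < T) (X : Fin N → V3) (R : Finset (Fin N))
    (hR : n ≤ R.card)
    (hX : ∀ m, 0 ≤ X m 0 ∧ X m 0 ≤ X m 2 ∧ 0 ≤ X m 1 ∧ X m 1 ≤ X m 2 ∧ 0 < X m 2 ∧ X m 2 ≤ Y)
    (hD : ∀ a ∈ R, ∀ b ∈ R, ∀ d ∈ R, a ≠ b → a ≠ d → b ≠ d → (T : ℤ) ≤
        2 * |dd (fun v : V3 => v 0) (fun v => v 1) (fun v => v 2) (X a) (X b) (X d)|) :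
    ∃ P : Finset (ℝ × ℝ), n ≤ P.card ∧
        (∀ p ∈ P, 0 ≤ p.1 ∧ p.1 ≤ 1 ∧ 0 ≤ p.2 ∧ p.2 ≤ 1) ∧
        ∀ p ∈ P, ∀ q ∈ P, ∀ r ∈ P, p ≠ q → p ≠ r → q ≠ r →
          (T : ℝ) / (4 * (Y : ℝ) ^ 3) ≤
            |(q.1 - p.1) * (r.2 - p.2) - (q.2 - p.2) * (r.1 - p.1)| / 2 := by
  classical
  let F : Fin N → ℝ × ℝ := fun m => ((X m 0 : ℝ) / X m 2, (X m 1 : ℝ) / X m 2)
  have hz : ∀ m, (0 : ℝ) < X m 2 := fun m => by exact_mod_cast (hX m).2.2.2.2.1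
  have hzY : ∀ m, (X m 2 : ℝ) ≤ Y := fun m => by exact_mod_cast (hX m).2.2.2.2.2
  have key : ∀ a ∈ R, ∀ b ∈ R, ∀ d ∈ R, a ≠ b → a ≠ d → b ≠ d → (T : ℝ) / (4 * (Y : ℝ) ^ 3) ≤
      |((F b).1 - (F a).1) * ((F d).2 - (F a).2) - ((F b).2 - (F a).2) * ((F d).1 - (F a).1)| / 2 := by
    intro a ha b hb d hd hab had hbd
    have h1 : (T : ℝ) ≤ 2 * |((dd (fun v : V3 => v 0) (fun v => v 1) (fun v => v 2)
      (X a) (X b) (X d) : ℤ) : ℝ)| := by exact_mod_cast hD a ha b hb d hd hab had hbd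
    have za := hz a
    have zb := hz b
    have zd := hz d
    have e : ((F b).1 - (F a).1) * ((F d).2 - (F a).2) - ((F b).2 - (F a).2) * ((F d).1 - (F a).1) =
        ((dd (fun v : V3 => v 0) (fun v => v 1) (fun v => v 2) (X a) (X b) (X d) : ℤ) : ℝ) /
          (X a 2 * X b 2 * X d 2) := by
      simp only [F, dd]
      push_cast
      field_simp
      ring
    rw [e, abs_div, abs_of_pos (by positivity : (0 : ℝ) < X a 2 * X b 2 * X d 2), div_div]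
    have h2 : (X a 2 : ℝ) * X b 2 * X d 2 ≤ (Y : ℝ) ^ 3 := by
      have hY : (0 : ℝ) ≤ Y := by positivity
      calc (X a 2 : ℝ) * X b 2 * X d 2 ≤ Y * Y * Y := by
            have := hzY a
            have := hzY b
            have := hzY d
            gcongr
        _ = _ := by ring
    have hYp : (0 : ℝ) < (Y : ℝ) ^ 3 := lt_of_lt_of_le (by positivity) h2
    rw [div_le_div_iff₀ (by positivity) (by positivity)]
    have hT0 : (0 : ℝ) ≤ T := by positivity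
    nlinarith [mul_le_mul h1 h2 (by positivity) (by positivity)]
  have hinj : Set.InjOn F R := by
    intro a ha b hb hab
    by_contra hne
    obtain ⟨d, hd, hda, hdb⟩ : ∃ d ∈ R, d ≠ a ∧ d ≠ b := by
      by_contra hc
      push Not at hc
      have : R ⊆ {a, b} := by
        intro d hd
        by_cases h : d = a
        · simp [h]
        · simp [hc d hd h]
      have h4 := Finset.card_le_card this
      have h5 : ({a, b} : Finset (Fin N)).card ≤ 2 := Finset.card_le_two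
      omega
    have h1 := key a ha b hb d hd hne hda.symm hdb.symm
    rw [hab] at h1
    simp only [sub_self, zero_mul, abs_zero, zero_div] at h1
    have hY : (0 : ℝ) < Y := lt_of_lt_of_le (hz a) (hzY a)
    have : (0 : ℝ) < (T : ℝ) / (4 * (Y : ℝ) ^ 3) := by positivity
    linarith
  refine ⟨R.image F, by rw [Finset.card_image_of_injOn hinj]; exact hR, ?_, ?_⟩
  · intro p hp
    obtain ⟨m, _, rfl⟩ := Finset.mem_image.1 hp
    obtain ⟨h0, h1, h2, h3, _, _⟩ := hX m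
    have h0' : (0 : ℝ) ≤ X m 0 := by exact_mod_cast h0
    have h1' : (X m 0 : ℝ) ≤ X m 2 := by exact_mod_cast h1
    have h2' : (0 : ℝ) ≤ X m 1 := by exact_mod_cast h2
    have h3' : (X m 1 : ℝ) ≤ X m 2 := by exact_mod_cast h3
    have := hz m
    exact ⟨div_nonneg h0' this.le, (div_le_one this).2 h1', div_nonneg h2' this.le,
      (div_le_one this).2 h3'⟩
  · intro p hp q hq r hr hpq hpr hqr
    obtain ⟨a, ha, rfl⟩ := Finset.mem_image.1 hp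
    obtain ⟨b, hb, rfl⟩ := Finset.mem_image.1 hq
    obtain ⟨d, hd, rfl⟩ := Finset.mem_image.1 hr
    exact key a ha b hb d hd (fun h => hpq (by rw [h])) (fun h => hpr (by rw [h]))
      (fun h => hqr (by rw [h]))

set_option maxHeartbeats 1000000 in
theorem family : ∃ a : ℕ, 0 < a ∧ ∃ C : ℝ, 0 < C ∧ ∃ P0 : ℕ, ∀ P : ℕ, P0 ≤ P →
    ∃ S : Finset (ℝ × ℝ), P ^ a ≤ S.card ∧
        (∀ p ∈ S, 0 ≤ p.1 ∧ p.1 ≤ 1 ∧ 0 ≤ p.2 ∧ p.2 ≤ 1) ∧
        ∀ p ∈ S, ∀ q ∈ S, ∀ r ∈ S, p ≠ q → p ≠ r → q ≠ r →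
          (P : ℝ) / (C * ((P : ℝ) ^ a) ^ 2) ≤
            |(q.1 - p.1) * (r.2 - p.2) - (q.2 - p.2) * (r.1 - p.1)| / 2 := by
  obtain ⟨t, ht⟩ := label 11 (by decide)
  obtain ⟨k1, hk1⟩ : ∃ k1, k1 = 2 ^ t := ⟨_, rfl⟩
  have hk1pos : 1 ≤ k1 := hk1 ▸ Nat.one_le_two_pow
  obtain ⟨τ, hτ⟩ : ∃ τ, τ + 1 = 100 * k1 := ⟨100 * k1 - 1, by omega⟩
  obtain ⟨C1, hC1⟩ : ∃ C1, C1 = 384 * (t + 1) ^ 2 := ⟨_, rfl⟩
  have hC1pos : 384 ≤ C1 := by
    rw [hC1]; exact Nat.le_mul_of_pos_right _ (by positivity)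
  refine ⟨157 * (τ + 1) + 4, by omega, 512 * C1 * (2 * C1) ^ (2 * (τ + 1)), by positivity,
    10 ^ 12 + 4 * C1 ^ 2 + (τ + 2) ^ 2 + t + 224 * (τ + 1) + 2, fun P hP => ?_⟩
  have hP1 : 10 ^ 12 ≤ P := by omega
  have hP2 : 4 * C1 ^ 2 ≤ P := by omega
  have hP3 : (τ + 2) ^ 2 ≤ P := by omega
  have hP4 : t ≤ P := by omega
  have hP5 : 224 * (τ + 1) + 2 ≤ P := by omega
  have hP6 : 4 * C1 ≤ P := by nlinarith
  have hP0 : 1 ≤ P := by omega
  have mono : ∀ {a b : ℕ}, a ≤ b → P ^ a ≤ P ^ b := fun h => Nat.pow_le_pow_right hP0 h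
  obtain ⟨p, hp, hp1, hp2⟩ := Nat.exists_prime_lt_and_le_two_mul P (by omega)
  obtain ⟨l, hl, hl1, hl2⟩ := Nat.exists_prime_lt_and_le_two_mul (C1 * P ^ 7) (by positivity)
  obtain ⟨q, hq, hq1, hq2⟩ := Nat.exists_prime_lt_and_le_two_mul (P ^ (100 * (τ + 1)))
    (by positivity)
  obtain ⟨f, g, e, hb, hnd, hsep⟩ := ht p hp (by omega)
  have hP7 : P ≤ P ^ 7 := by simpa using mono (show 1 ≤ 7 by norm_num)
  have hl8 : 2 * l ≤ P ^ 8 := by
    calc 2 * l ≤ (4 * C1) * P ^ 7 := by linarith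
      _ ≤ P * P ^ 7 := Nat.mul_le_mul_right _ hP6
      _ = P ^ 8 := by ring
  have hl7 : P ^ 7 ≤ l := by nlinarith
  have hH8 : l ^ (τ + 1) ≤ P ^ (8 * (τ + 1)) := by
    rw [pow_mul]; exact Nat.pow_le_pow_left (by omega) _
  have hHpos : 1 ≤ l ^ (τ + 1) := Nat.one_le_pow _ _ hl.pos
  let Q : Par :=
    { t := t, nL := p ^ 11, p := p, l := l, τ := τ, W := P ^ 4, q := q, f := f, g := g, e := e
      hp := hp, hl := hl, hq := hq
      h3 := by omega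
      hpl := by nlinarith
      hlq := by
        have := mono (show 8 ≤ 100 * (τ + 1) by omega)
        omega
      hnL := pow_pos hp.pos _
      hf := fun α i => (hb α i).1
      hg := fun α i => (hb α i).2.1
      he := fun α i => (hb α i).2.2
      hnd := hnd, hsep := hsep
      hτ := by rw [← hk1]; omega
      hB := by
        have h1 : t ≤ P ^ 4 := hP4.trans (by simpa using mono (show 1 ≤ 4 by norm_num))
        have h2 : t * p + p * P ^ 4 ≤ 4 * P ^ 5 := by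
          calc t * p + p * P ^ 4 = p * (t + P ^ 4) := by ring
            _ ≤ (2 * P) * (P ^ 4 + P ^ 4) := by gcongr
            _ = 4 * P ^ 5 := by ring
        have h3 : t * p ≤ (t + 1) * (2 * P) := by gcongr; omega
        have h4 : 1 + t * p ≤ (t + 1) * (2 * P) := by nlinarith
        calc 24 * ((t * p + p * P ^ 4) * (t * p) * (1 + t * p))
            ≤ 24 * ((4 * P ^ 5) * ((t + 1) * (2 * P)) * ((t + 1) * (2 * P))) := by gcongr
          _ = C1 * P ^ 7 := by rw [hC1]; ring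
          _ ≤ l := hl1.le
      hW := (mono (show 4 ≤ 7 by norm_num)).trans hl7
      hW2 := by rw [← pow_mul]; exact hl8
      hC3 := by
        rw [← hk1]
        have h1 : l ^ 2 ≤ P ^ 15 := by
          calc l ^ 2 ≤ (2 * (C1 * P ^ 7)) ^ 2 := Nat.pow_le_pow_left hl2 2
            _ = (4 * C1 ^ 2) * P ^ 14 := by ring
            _ ≤ P * P ^ 14 := Nat.mul_le_mul_right _ hP2
            _ = P ^ 15 := by ring
        apply (Nat.pow_le_pow_iff_left (n := 2) (by norm_num)).1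
        calc ((l ^ (k1 + 1)) ^ 3 * ((P ^ 4) ^ k1 * ((τ + 2) * l ^ (τ + 1)))) ^ 2
            = (l ^ 2) ^ (3 * (k1 + 1) + (τ + 1)) * P ^ (8 * k1) * (τ + 2) ^ 2 := by ring
          _ ≤ (P ^ 15) ^ (3 * (k1 + 1) + (τ + 1)) * P ^ (8 * k1) * P := by gcongr
          _ = P ^ (15 * (3 * (k1 + 1) + (τ + 1)) + 8 * k1 + 1) := by ring
          _ ≤ P ^ (16 * (τ + 1)) := mono (by omega)
          _ = _ := by ring
      hY := by
        set H := l ^ (τ + 1) with hH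
        have h1 : 6561 * H ^ 8 ≤ q := by
          calc 6561 * H ^ 8 ≤ P * (P ^ (8 * (τ + 1))) ^ 8 := by gcongr; omega
            _ = P ^ (64 * (τ + 1) + 1) := by ring
            _ ≤ P ^ (100 * (τ + 1)) := mono (by omega)
            _ ≤ q := hq1.le
        have h2 : 1 ≤ H * q := Nat.mul_pos hHpos hq.pos
        calc (2 * (2 * (H * q)) + 1) ^ 5 * (2 * H + 1) ^ 3 * H ^ 6
            ≤ (3 * (2 * (H * q))) ^ 5 * (3 * H) ^ 3 * H ^ 6 := by gcongr <;> omega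
          _ = (2 * (H * q)) ^ 5 * (H * (6561 * H ^ 8)) := by ring
          _ ≤ (2 * (H * q)) ^ 5 * (2 * (H * q)) := by
            apply Nat.mul_le_mul_left
            have := Nat.mul_le_mul_left H h1
            omega
          _ = _ := by ring }
  have hPR : (1 : ℝ) ≤ P := by exact_mod_cast hP0
  have hLg : Q.Lg ≤ (P : ℝ) ^ 2 := by
    have h1 : 2 * Q.H * Q.Y ^ 2 ≤ P ^ (224 * (τ + 1) + 1) := by
      show 2 * l ^ (τ + 1) * (2 * (l ^ (τ + 1) * q)) ^ 2 ≤ _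
      calc 2 * l ^ (τ + 1) * (2 * (l ^ (τ + 1) * q)) ^ 2 = 8 * (l ^ (τ + 1)) ^ 3 * q ^ 2 := by ring
        _ ≤ 8 * (P ^ (8 * (τ + 1))) ^ 3 * (2 * P ^ (100 * (τ + 1))) ^ 2 := by gcongr
        _ = 32 * P ^ (224 * (τ + 1)) := by ring
        _ ≤ P * P ^ (224 * (τ + 1)) := Nat.mul_le_mul_right _ (by omega)
        _ = _ := by ring
    have h2 : 0 < 2 * Q.H * Q.Y ^ 2 := by
      show 0 < 2 * l ^ (τ + 1) * (2 * (l ^ (τ + 1) * q)) ^ 2
      have := hq.pos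
      positivity
    have h3 : Real.log (2 * Q.H * Q.Y ^ 2 : ℕ) ≤ (224 * (τ + 1) + 1 : ℕ) * Real.log P := by
      rw [← Real.log_pow]
      apply Real.log_le_log (by exact_mod_cast h2)
      exact_mod_cast h1
    have h4 : Real.log P ≤ P := (Real.log_le_sub_one_of_pos (by linarith)).trans (by linarith)
    have h5 : ((224 * (τ + 1) + 1 : ℕ) : ℝ) + 1 ≤ P := by exact_mod_cast hP5
    have h6 : ((224 * (τ + 1) + 1 : ℕ) : ℝ) * Real.log P ≤ (224 * (τ + 1) + 1 : ℕ) * P :=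
      mul_le_mul_of_nonneg_left h4 (by positivity)
    have h7 : (((224 * (τ + 1) + 1 : ℕ) : ℝ) + 1) * P ≤ P * P :=
      mul_le_mul_of_nonneg_right h5 (by positivity)
    have h8 : Q.Lg = 1 + Real.log (2 * Q.H * Q.Y ^ 2 : ℕ) := rfl
    rw [h8]
    generalize Real.log (2 * Q.H * Q.Y ^ 2 : ℕ) = u at h3 ⊢
    generalize ((224 * (τ + 1) + 1 : ℕ) : ℝ) = v at h3 h6 h7
    linarith
  have hK : 32768 * Q.K ≤ (P : ℝ) ^ 3 := by
    have h1 : (10 : ℝ) ^ 12 ≤ P := by exact_mod_cast hP1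
    have h2 : (1 : ℝ) ≤ (P : ℝ) ^ 2 := one_le_pow₀ hPR
    have h3 : Q.K = 2 * (1 + 18 ^ 3 * (208 * Q.Lg)) + 18 ^ 3 * 729 * 3 := rfl
    have h4 : (10 : ℝ) ^ 12 * (P : ℝ) ^ 2 ≤ P * (P : ℝ) ^ 2 :=
      mul_le_mul_of_nonneg_right h1 (by positivity)
    rw [h3]
    generalize Q.Lg = u at hLg ⊢
    linarith
  obtain ⟨X, R, hR, hX, hD⟩ := Q.core (2 * P ^ (157 * (τ + 1) + 4))
    (by
      show _ ≤ q ^ 2
      calc 2 * P ^ (157 * (τ + 1) + 4) ≤ P * P ^ (157 * (τ + 1) + 4) :=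
            Nat.mul_le_mul_right _ (by omega)
        _ = P ^ (157 * (τ + 1) + 5) := by ring
        _ ≤ P ^ (200 * (τ + 1)) := mono (by omega)
        _ = (P ^ (100 * (τ + 1))) ^ 2 := by ring
        _ ≤ q ^ 2 := Nat.pow_le_pow_left hq1.le 2)
    (by
      have h1 : P ^ 11 * (P ^ (7 * (τ + 1))) ^ 2 * (P ^ (100 * (τ + 1))) ^ 3 ≤
          p ^ 11 * (l ^ (τ + 1)) ^ 2 * q ^ 3 := by
        have : P ^ (7 * (τ + 1)) ≤ l ^ (τ + 1) := by
          rw [pow_mul]; exact Nat.pow_le_pow_left hl7 _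
        gcongr
      have h2 : ((P ^ 11 * (P ^ (7 * (τ + 1))) ^ 2 * (P ^ (100 * (τ + 1))) ^ 3 : ℕ) : ℝ) ≤
          (Q.nL : ℝ) * (Q.H : ℝ) ^ 2 * (Q.q : ℝ) ^ 3 := by exact_mod_cast h1
      refine le_trans ?_ h2
      push_cast
      calc 8192 * Q.K * (2 * (P : ℝ) ^ (157 * (τ + 1) + 4)) ^ 2
          = (32768 * Q.K) * (P : ℝ) ^ (314 * (τ + 1) + 8) := by ring
        _ ≤ (P : ℝ) ^ 3 * (P : ℝ) ^ (314 * (τ + 1) + 8) :=
          mul_le_mul_of_nonneg_right hK (by positivity)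
        _ = _ := by ring)
  obtain ⟨S, hS1, hS2, hS3⟩ := to_plane _ (P ^ (157 * (τ + 1) + 4)) Q.Y (l ^ τ)
    (le_trans (by omega) (Nat.le_self_pow (by omega) P)) (pow_pos hl.pos _) X R (by omega) hX
    (by exact_mod_cast hD)
  refine ⟨S, hS1, hS2, fun a ha b hb d hd h1 h2 h3 => le_trans ?_ (hS3 a ha b hb d hd h1 h2 h3)⟩
  have hYp : 0 < Q.Y := by
    show 0 < 2 * (l ^ (τ + 1) * q)
    have := hq.pos
    positivity
  have hYR : (0 : ℝ) < Q.Y := by exact_mod_cast hYp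
  have hC1R : (0 : ℝ) < C1 := by exact_mod_cast (show 0 < C1 by omega)
  rw [div_le_div_iff₀ (by positivity) (by positivity)]
  have h4 : P * (4 * Q.Y ^ 3) ≤
      l ^ τ * (512 * C1 * (2 * C1) ^ (2 * (τ + 1)) * (P ^ (157 * (τ + 1) + 4)) ^ 2) := by
    show P * (4 * (2 * (l ^ (τ + 1) * q)) ^ 3) ≤ _
    have h5 : l ^ (τ + 1) ≤ (2 * (C1 * P ^ 7)) ^ (τ + 1) := Nat.pow_le_pow_left hl2 _
    calc P * (4 * (2 * (l ^ (τ + 1) * q)) ^ 3)
        = l ^ τ * (32 * P * l * (l ^ (τ + 1)) ^ 2 * q ^ 3) := by ring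
      _ ≤ l ^ τ * (32 * P * (2 * (C1 * P ^ 7)) * ((2 * (C1 * P ^ 7)) ^ (τ + 1)) ^ 2 *
          (2 * P ^ (100 * (τ + 1))) ^ 3) := by gcongr
      _ = _ := by
        simp only [mul_pow, ← pow_mul]
        ring
  exact_mod_cast h4

end Crest.Agent.R32
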